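import Vale.Agent.P042.H48.Tot4

/-!
# P042, (I3) with the roots at one scale, pins in the lower scales
-/

set_option autoImplicit false
set_option linter.unusedSectionVars false

namespace Vale.Agent.P042.H48

open Finset Vale.Agent.P042.H461 Vale.Agent.P042.H416 Vale.Agent.P042.H742
open Vale.Agent.P042.H779 (marg m1)
open Vale.Agent.P042.H779.Ab (Lo At Ref PinsE)

variable {ι : Type*} [Fintype ι] [DecidableEq ι] {V : ι → Type*} [∀ i, Fintype (V i)]
  [∀ i, DecidableEq (V i)]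

/-- a set which is not contained in the support of the rates has weight `0` -/
theorem bw_eq_zero {t : ι → ℝ} {i : ι} (hi : t i = 0) {R : Finset ι} (hR : i ∈ R) :
    bw t R = 0 := by
  unfold bw
  rw [Finset.prod_eq_zero hR hi, zero_mul]

theorem MI_mem {mu : (∀ i, V i) → ℝ} {i : ι} {R : Finset ι} (hi : i ∈ R) :
    MI mu i R = -ne mu {i} := by
  unfold MI
  rw [Finset.insert_eq_of_mem hi]
  ring

/-- roots of scale `s` with any weights `g ≤ 1`, sets of coordinates of scale at most `s` -/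
theorem totals_top {mu : (∀ i, V i) → ℝ} (h : IsLaw mu) {t : ι → ℝ} (h0 : ∀ i, 0 ≤ t i)
    (h1 : ∀ i, t i ≤ 1) {sc : ι → ℕ} {s : ℕ} (hts : ∀ i, s < sc i → t i = 0)
    {ok' : Finset ι → Prop} [DecidablePred ok'] {lam a : ℝ} {c : ι → ℝ} (hl : 0 < lam)
    (ha : 0 ≤ a) (hc : ∀ i, 0 ≤ c i)
    (hP : ∀ P ⊆ Lo sc (s + 1), ok' P → lam * ∑ j ∈ At sc s \ P, MI mu j P ≤ ∑ i ∈ P, c i + a)
    {bad : ℝ} (hbad : ∑ R, bw t R * (if ok' R then 0 else 1) ≤ bad)
    {H : ℝ} (hH0 : 0 ≤ H) (hH : ∀ i ∈ At sc s, -ne mu {i} ≤ H) :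
    ∑ i ∈ At sc s, ∑ a, m1 mu i a * Iia t mu i a ≤
      (∑ i ∈ Lo sc (s + 1), t i * c i + a) / lam + bad * ((At sc s).card * H) +
        H * ∑ i ∈ At sc s, t i := by
  have e1 : ∑ i ∈ At sc s, ∑ a, m1 mu i a * Iia t mu i a =
      ∑ R, bw t R * ∑ i ∈ At sc s, MI mu i R := by
    have h2 : ∀ i, ∑ a, m1 mu i a * Iia t mu i a = ∑ R, bw t R * MI mu i R :=
      fun i => sum_Iia t h i
    rw [Finset.sum_congr rfl fun i _ => h2 i, Finset.sum_comm]
    exact Finset.sum_congr rfl fun R _ => by rw [Finset.mul_sum]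
  have e2 : ∀ R : Finset ι, bw t R * ∑ i ∈ At sc s, MI mu i R ≤
      bw t R * ((∑ i ∈ R ∩ Lo sc (s + 1), c i + a) / lam +
        (if ok' R then 0 else 1) * ((At sc s).card * H) + ∑ i ∈ R ∩ At sc s, H) := by
    intro R
    by_cases hR : R ⊆ Lo sc (s + 1)
    swap
    · obtain ⟨i, hi, hi'⟩ := Finset.not_subset.1 hR
      have h2 : s < sc i := by
        by_contra hc'
        exact hi' (mem_Lo.2 (by omega))
      rw [bw_eq_zero (hts i h2) hi]
      simp
    refine mul_le_mul_of_nonneg_left ?_ (bw_nonneg h0 h1 R)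
    have h3 : ∑ i ∈ At sc s, MI mu i R =
        ∑ i ∈ At sc s \ R, MI mu i R + ∑ i ∈ R ∩ At sc s, MI mu i R := by
      rw [Finset.inter_comm, add_comm, ← Finset.sum_union]
      · congr 1
        ext i
        simp only [Finset.mem_union, Finset.mem_inter, Finset.mem_sdiff]
        tauto
      · rw [Finset.disjoint_left]
        intro i hi hi'
        exact (Finset.mem_sdiff.1 hi').2 (Finset.mem_inter.1 hi).2
    have h4 : ∑ i ∈ R ∩ At sc s, MI mu i R ≤ ∑ i ∈ R ∩ At sc s, H :=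
      Finset.sum_le_sum fun i hi => by
        rw [MI_mem (Finset.mem_inter.1 hi).1]
        exact hH i (Finset.mem_inter.1 hi).2
    have h5 : ∑ i ∈ At sc s \ R, MI mu i R ≤ (∑ i ∈ R ∩ Lo sc (s + 1), c i + a) / lam +
        (if ok' R then 0 else 1) * ((At sc s).card * H) := by
      have hpos : 0 ≤ (∑ i ∈ R ∩ Lo sc (s + 1), c i + a) / lam :=
        div_nonneg (add_nonneg (Finset.sum_nonneg fun i _ => hc i) ha) hl.le
      by_cases hok : ok' R
      · rw [if_pos hok, zero_mul, add_zero, le_div_iff₀ hl, mul_comm,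
          Finset.inter_eq_left.2 hR]
        exact hP R hR hok
      · rw [if_neg hok, one_mul]
        have h6 : ∑ i ∈ At sc s \ R, MI mu i R ≤ ∑ i ∈ At sc s, H :=
          (Finset.sum_le_sum_of_subset_of_nonneg Finset.sdiff_subset fun j _ _ =>
            MI_nonneg h j _).trans (Finset.sum_le_sum fun j hj => (MI_le h j _).trans (hH j hj))
        rw [Finset.sum_const, nsmul_eq_mul] at h6
        linarith
    linarith
  rw [e1]
  refine (Finset.sum_le_sum fun R _ => e2 R).trans ?_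
  have hsplit : ∀ R : Finset ι, bw t R * ((∑ i ∈ R ∩ Lo sc (s + 1), c i + a) / lam +
        (if ok' R then 0 else 1) * ((At sc s).card * H) + ∑ i ∈ R ∩ At sc s, H) =
      (bw t R * ∑ i ∈ R ∩ Lo sc (s + 1), c i) / lam + bw t R * (a / lam) +
        (bw t R * (if ok' R then 0 else 1)) * ((At sc s).card * H) +
        bw t R * ∑ i ∈ R ∩ At sc s, H := by
    intro R
    ring
  rw [Finset.sum_congr rfl fun R _ => hsplit R, Finset.sum_add_distrib, Finset.sum_add_distrib,
    Finset.sum_add_distrib, ← Finset.sum_div, avg_sum_mem, ← Finset.sum_mul, sum_bw, one_mul,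
    ← Finset.sum_mul, ← add_div, avg_sum_mem, ← Finset.sum_mul]
  have h7 : 0 ≤ (At sc s).card * H := mul_nonneg (Nat.cast_nonneg _) hH0
  have h8 := mul_le_mul_of_nonneg_right hbad h7
  linarith

/-- the same from the pinned inequality in exponential form -/
theorem totals_top_pins {w : ∀ i, V i → ℝ} {mu : (∀ i, V i) → ℝ} (H : Ref w mu) {t : ι → ℝ}
    (h0 : ∀ i, 0 ≤ t i) (h1 : ∀ i, t i ≤ 1) {sc : ι → ℕ} {s : ℕ}
    (hts : ∀ i, s < sc i → t i = 0) {ok' : Finset ι → Prop} [DecidablePred ok'] {L : ℝ}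
    {lam a : ℕ → ℝ} {c : ℕ → ι → ℝ} (HP : PinsE w mu sc ok' L lam a c) {bad : ℝ}
    (hbad : ∑ R, bw t R * (if ok' R then 0 else 1) ≤ bad) :
    ∑ i ∈ At sc s, ∑ a, m1 mu i a * Iia t mu i a ≤
      (∑ i ∈ Lo sc (s + 1), t i * c s i + a s) / lam s + bad * ((At sc s).card * L) +
        L * ∑ i ∈ At sc s, t i :=
  totals_top (isLaw_of_ref H) h0 h1 hts (HP.lam0 s) (HP.a0 s) (HP.c0 s)
    (pins_MI H HP s) hbad (le_trans zero_le_one HP.L1) fun i _ => neg_ne_le H (HP.atoms i)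

end Vale.Agent.P042.H48
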