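import Vale.Agent.P042.H742.Test
import Vale.Agent.P042.SS.EntLib

/-!
# P042, block [B]: tensorisation of the multi-coordinate entropy inequality

`MEIK t ε e1 K mu` passes to the `N`-fold product: the laws with density at most `C` with respect to
`rep mu N` satisfy the inequality with the error `N * (e1 + C * log K / K)`.
-/

set_option autoImplicit false
set_option linter.unusedSectionVars false

namespace Vale.Agent.P042.H48

open Finset Vale.Agent.P042.H461 Vale.Agent.P042.H416 Vale.Agent.P042.H742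
open Vale.Agent.P042.H779 (marg m1)

section gen

variable {ι : Type*} [Fintype ι] [DecidableEq ι] {V : ι → Type*} [∀ i, Fintype (V i)]
  [∀ i, DecidableEq (V i)]

theorem marg_univ (nu : (∀ i, V i) → ℝ) (y : ∀ i, V i) : marg nu univ y = nu y := by
  unfold marg
  rw [Finset.sum_eq_single y]
  · exact if_pos fun i _ => rfl
  · intro x _ hx
    exact if_neg fun h => hx (funext fun i => h i (Finset.mem_univ i))
  · intro h
    exact absurd (Finset.mem_univ y) h

theorem marg_empty {nu : (∀ i, V i) → ℝ} (h : IsLaw nu) (y : ∀ i, V i) : marg nu ∅ y = 1 := by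
  unfold marg
  simp only [Finset.notMem_empty, false_imp_iff, implies_true, if_true]
  exact h.2

theorem marg_nonneg {nu : (∀ i, V i) → ℝ} (h : ∀ x, 0 ≤ nu x) (R : Finset ι) (y : ∀ i, V i) :
    0 ≤ marg nu R y := (h y).trans (le_marg h R y)

theorem KL_rst_univ (nu mu : (∀ i, V i) → ℝ) :
    KL (push (rst univ) nu) (push (rst univ) mu) = KL nu mu := by
  rw [KL_rst]
  unfold KL
  exact Finset.sum_congr rfl fun y _ => by rw [marg_univ, marg_univ]

/-- a law with density at most `B` -/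
theorem KL_le_log {X : Type*} [Fintype X] {nu mu : X → ℝ} (hnu : IsLaw nu)
    (hmu : ∀ x, 0 ≤ mu x) {B : ℝ} (h : ∀ x, nu x ≤ B * mu x) : KL nu mu ≤ Real.log B := by
  have h1 : ∀ x, nu x * Real.log (nu x / mu x) ≤ nu x * Real.log B := by
    intro x
    rcases (hnu.1 x).eq_or_lt with h0 | h0
    · rw [← h0, zero_mul, zero_mul]
    · have hm : 0 < mu x := by
        rcases (hmu x).eq_or_lt with h2 | h2
        · have := h x
          rw [← h2, mul_zero] at this
          linarith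
        · exact h2
      refine mul_le_mul_of_nonneg_left ?_ h0.le
      refine Real.log_le_log (div_pos h0 hm) ?_
      rw [div_le_iff₀ hm]
      exact h x
  calc KL nu mu ≤ ∑ x, nu x * Real.log B := Finset.sum_le_sum fun x _ => h1 x
    _ = Real.log B := by rw [← Finset.sum_mul, hnu.2, one_mul]

/-- the relative entropy of the restrictions to `R` -/
noncomputable def kl (nu mu : (∀ i, V i) → ℝ) (R : Finset ι) : ℝ :=
  ∑ y, nu y * Real.log (marg nu R y / marg mu R y)

/-- the mean of the logarithm of the marginals of `rho` -/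
noncomputable def lm (nu rho : (∀ i, V i) → ℝ) (R : Finset ι) : ℝ :=
  ∑ y, nu y * Real.log (marg rho R y)

theorem kl_eq {nu mu : (∀ i, V i) → ℝ} (hnu : ∀ x, 0 ≤ nu x) (hmu : ∀ x, 0 ≤ mu x)
    (hac : AC nu mu) (R : Finset ι) : kl nu mu R = lm nu nu R - lm nu mu R := by
  unfold kl lm
  rw [← Finset.sum_sub_distrib]
  refine Finset.sum_congr rfl fun y _ => ?_
  by_cases h0 : nu y = 0
  · rw [h0]
    ring
  · have h1 : 0 < nu y := lt_of_le_of_ne (hnu y) (Ne.symm h0)
    have h2 : 0 < mu y := lt_of_le_of_ne (hmu y) fun h => h0 (hac y h.symm)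
    have h3 : 0 < marg nu R y := lt_of_lt_of_le h1 (le_marg hnu R y)
    have h4 : 0 < marg mu R y := lt_of_lt_of_le h2 (le_marg hmu R y)
    rw [Real.log_div h3.ne' h4.ne']
    ring

theorem lm_eq_Ent (nu : (∀ i, V i) → ℝ) (R : Finset ι) :
    lm nu nu R = -SS.Ent univ nu (rst R) := by
  unfold lm SS.Ent
  rw [neg_neg]
  refine Finset.sum_congr rfl fun y _ => ?_
  have h : SS.pr univ nu (rst R) y = marg nu R y := by
    rw [SS.pr_eq_sum_ite]
    unfold marg
    refine Finset.sum_congr rfl fun x _ => ?_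
    by_cases hx : ∀ i ∈ R, x i = y i
    · rw [if_pos hx, if_pos (rst_eq_iff.2 hx)]
    · rw [if_neg hx, if_neg fun h => hx (rst_eq_iff.1 h)]
  rw [h]

/-- supermodularity of the negative entropy -/
theorem lm_supermod {nu : (∀ i, V i) → ℝ} (hnu : IsLaw nu) {A A' B : Finset ι} (hA : A ⊆ A') :
    lm nu nu (A ∪ B) - lm nu nu A ≤ lm nu nu (A' ∪ B) - lm nu nu A' := by
  have h := SS.Ent_submod' (s := (univ : Finset (∀ i, V i))) (μ := nu) (X := rst (A ∪ B))
    (Y := rst A') (Z := rst A) (U := rst (A' ∪ B)) (fun x _ => hnu.1 x) hnu.2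
    (fun x _ y _ hxy => by
      rw [rst_eq_iff] at hxy ⊢
      exact fun i hi => hxy i (Finset.mem_union_left _ hi))
    (fun x _ y _ hxy => by
      rw [rst_eq_iff] at hxy ⊢
      exact fun i hi => hxy i (hA hi))
    (fun x _ y _ hxy hxy' => by
      rw [rst_eq_iff] at hxy hxy' ⊢
      intro i hi
      rcases Finset.mem_union.1 hi with hi | hi
      · exact hxy' i hi
      · exact hxy i (Finset.mem_union_right _ hi))
  simp only [lm_eq_Ent]
  linarith

/-- the mixture lemma: a joint law on `Z × X` with `J z x ≤ C α_z mu_x` -/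
theorem mix {Z : Type*} [Fintype Z] {t : ι → ℝ} (ht0 : ∀ i, 0 ≤ t i) (ht1 : ∀ i, t i ≤ 1)
    {ε e1 K C : ℝ} (hε : 0 ≤ ε) (he1 : 0 ≤ e1) (hC : 0 ≤ C) (hK : Real.exp 1 ≤ K)
    {mu : (∀ i, V i) → ℝ} (hmu : IsLaw mu) (hM : MEIK t ε e1 K mu)
    {J : Z → (∀ i, V i) → ℝ} (hJ : ∀ z x, 0 ≤ J z x) (hJ1 : ∑ z, ∑ x, J z x = 1)
    {α : Z → ℝ} (hα : ∀ z, 0 ≤ α z) (hα1 : ∑ z, α z = 1)
    (hJC : ∀ z x, J z x ≤ C * α z * mu x) :
    ∑ S : Finset ι, bw t S * ∑ z, (∑ x, J z x) *
        KL (push (rst S) fun x => J z x / ∑ x', J z x') (push (rst S) mu) ≤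
      ε * ∑ z, (∑ x, J z x) * KL (fun x => J z x / ∑ x', J z x') mu +
        (e1 + C * Real.log K / K) := by
  have hK0 : 0 < K := lt_of_lt_of_le (Real.exp_pos 1) hK
  have hlK : 1 ≤ Real.log K := by
    rw [Real.le_log_iff_exp_le hK0]
    exact hK
  set w : Z → ℝ := fun z => ∑ x, J z x with hw
  have hw0 : ∀ z, 0 ≤ w z := fun z => Finset.sum_nonneg fun x _ => hJ z x
  have key : ∀ z, w z * ∑ S : Finset ι, bw t S *
      KL (push (rst S) fun x => J z x / w z) (push (rst S) mu) ≤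
      ε * (w z * KL (fun x => J z x / w z) mu) + w z * e1 + α z * (C * Real.log K / K) := by
    intro z
    have hlast : 0 ≤ α z * (C * Real.log K / K) :=
      mul_nonneg (hα z) (div_nonneg (mul_nonneg hC (by linarith)) hK0.le)
    rcases (hw0 z).eq_or_lt with h0 | h0
    · rw [← h0]
      simp only [zero_mul, mul_zero, zero_add]
      exact hlast
    have hc : IsLaw fun x => J z x / w z := by
      refine ⟨fun x => div_nonneg (hJ z x) (hw0 z), ?_⟩
      rw [← Finset.sum_div]
      exact div_self h0.ne'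
    have hdens : ∀ x, J z x / w z ≤ C * α z / w z * mu x := by
      intro x
      rw [div_mul_eq_mul_div]
      exact div_le_div_of_nonneg_right (hJC z x) h0.le
    have hac : AC (fun x => J z x / w z) mu := by
      intro x hx
      have h1 := hdens x
      rw [hx, mul_zero] at h1
      exact le_antisymm h1 (hc.1 x)
    have hKL0 : 0 ≤ KL (fun x => J z x / w z) mu := hc.KL_nonneg hmu hac
    by_cases hcase : C * α z / w z ≤ K
    · have h1 := hM _ hc fun x => (hdens x).trans (mul_le_mul_of_nonneg_right hcase (hmu.1 x))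
      have h2 := mul_le_mul_of_nonneg_left h1 h0.le
      linarith
    · push Not at hcase
      set B : ℝ := C * α z / w z with hB
      have hB0 : 0 < B := hK0.trans hcase
      have h1 : ∀ S : Finset ι, KL (push (rst S) fun x => J z x / w z) (push (rst S) mu) ≤
          Real.log B := by
        intro S
        refine KL_le_log (hc.push (rst S)) (push_nonneg hmu.1 (rst S)) fun u => ?_
        unfold push
        rw [Finset.mul_sum]
        exact Finset.sum_le_sum fun x _ => hdens x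
      have h2 : ∑ S : Finset ι, bw t S *
          KL (push (rst S) fun x => J z x / w z) (push (rst S) mu) ≤ Real.log B := by
        refine (Finset.sum_le_sum fun S _ =>
          mul_le_mul_of_nonneg_left (h1 S) (bw_nonneg ht0 ht1 S)).trans (le_of_eq ?_)
        rw [← Finset.sum_mul, sum_bw, one_mul]
      have h3 : Real.log B ≤ Real.log K * (B / K) := by
        have hs : 1 ≤ B / K := by
          rw [le_div_iff₀ hK0]
          linarith
        have h4 : Real.log B = Real.log K + Real.log (B / K) := by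
          rw [Real.log_div hB0.ne' hK0.ne']
          ring
        have h5 := Real.log_le_sub_one_of_pos (div_pos hB0 hK0)
        nlinarith
      have h6 : w z * (Real.log K * (B / K)) = α z * (C * Real.log K / K) := by
        rw [hB]
        field_simp
      have h7 := mul_le_mul_of_nonneg_left (h2.trans h3) h0.le
      have h8 : 0 ≤ ε * (w z * KL (fun x => J z x / w z) mu) :=
        mul_nonneg hε (mul_nonneg h0.le hKL0)
      have h9 : 0 ≤ w z * e1 := mul_nonneg h0.le he1
      linarith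
  have hswap : ∑ S : Finset ι, bw t S * ∑ z, w z *
        KL (push (rst S) fun x => J z x / w z) (push (rst S) mu) =
      ∑ z, w z * ∑ S : Finset ι, bw t S *
        KL (push (rst S) fun x => J z x / w z) (push (rst S) mu) := by
    have h1 : ∀ S : Finset ι, bw t S * ∑ z, w z *
        KL (push (rst S) fun x => J z x / w z) (push (rst S) mu) =
        ∑ z, w z * (bw t S * KL (push (rst S) fun x => J z x / w z) (push (rst S) mu)) := by
      intro S
      rw [Finset.mul_sum]
      exact Finset.sum_congr rfl fun z _ => by ring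
    rw [Finset.sum_congr rfl fun S _ => h1 S, Finset.sum_comm]
    exact Finset.sum_congr rfl fun z _ => by rw [Finset.mul_sum]
  rw [hswap]
  refine (Finset.sum_le_sum fun z _ => key z).trans (le_of_eq ?_)
  rw [Finset.sum_add_distrib, Finset.sum_add_distrib, ← Finset.mul_sum, ← Finset.sum_mul,
    ← Finset.sum_mul, hα1, hJ1]
  ring

end gen

section rep

variable {ι : Type*} [Fintype ι] [DecidableEq ι] {V : ι → Type*} [∀ i, Fintype (V i)]
  [∀ i, DecidableEq (V i)] {N : ℕ}

/-- the coordinates of the replicas `< r` -/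
def Fl (ι : Type*) [Fintype ι] (N r : ℕ) : Finset (ι × Fin N) := univ.filter fun p => p.2.val < r

theorem mem_Fl {r : ℕ} {p : ι × Fin N} : p ∈ Fl ι N r ↔ p.2.val < r := by simp [Fl]

theorem sl_inter_Fl (R : Finset (ι × Fin N)) (r : Fin N) : sl (R ∩ Fl ι N r) r = ∅ := by
  ext i
  simp [mem_Fl]

theorem sl_Fl (r : Fin N) : sl (Fl ι N r) r = ∅ := by
  ext i
  simp [mem_Fl]

/-- the density of a replica independent of the others -/
theorem marg_union {mu : (∀ i, V i) → ℝ} (hmu : IsLaw mu) {A : Finset (ι × Fin N)} {r : Fin N}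
    (hA : sl A r = ∅) (S : Finset ι) (y : ∀ p : ι × Fin N, V p.1) :
    marg (rep mu N) (A ∪ S ×ˢ {r}) y = marg (rep mu N) A y * marg mu S (sly y r) := by
  rw [rep_eq_rps, marg_rps, marg_rps, ← Finset.mul_prod_erase univ _ (Finset.mem_univ r),
    ← Finset.mul_prod_erase univ (fun r' => marg mu (sl A r') (sly y r')) (Finset.mem_univ r), hA,
    marg_empty hmu, one_mul, mul_comm]
  congr 1
  · refine Finset.prod_congr rfl fun r' hr' => ?_
    have h : sl (A ∪ S ×ˢ {r}) r' = sl A r' := by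
      ext i
      simp only [mem_sl, Finset.mem_union, Finset.mem_product, Finset.mem_singleton]
      constructor
      · rintro (h | h)
        · exact h
        · exact absurd h.2 (Finset.ne_of_mem_erase hr')
      · exact Or.inl
    rw [h]
  · have h : sl (A ∪ S ×ˢ {r}) r = S := by
      ext i
      have h1 : (i, r) ∉ A := by
        intro h2
        have h3 : i ∈ sl A r := mem_sl.2 h2
        rw [hA] at h3
        simp at h3
      simp [h1]
    rw [h]

theorem inter_Fl_succ (R : Finset (ι × Fin N)) (r : Fin N) :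
    R ∩ Fl ι N (r + 1) = (R ∩ Fl ι N r) ∪ (sl R r) ×ˢ {r} := by
  ext p
  obtain ⟨i, r'⟩ := p
  simp only [Finset.mem_inter, mem_Fl, Finset.mem_union, Finset.mem_product, mem_sl,
    Finset.mem_singleton]
  constructor
  · rintro ⟨h1, h2⟩
    rcases Nat.lt_succ_iff_lt_or_eq.1 h2 with h3 | h3
    · exact Or.inl ⟨h1, h3⟩
    · have h4 : r' = r := Fin.ext h3
      subst h4
      exact Or.inr ⟨h1, rfl⟩
  · rintro (⟨h1, h2⟩ | ⟨h1, h2⟩)
    · exact ⟨h1, Nat.lt_succ_of_lt h2⟩
    · subst h2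
      exact ⟨h1, Nat.lt_succ_self _⟩

theorem Fl_succ (r : Fin N) : Fl ι N (r + 1) = Fl ι N r ∪ univ ×ˢ {r} := by
  have h := inter_Fl_succ (univ : Finset (ι × Fin N)) r
  rw [Finset.univ_inter, Finset.univ_inter] at h
  rw [h]
  congr 2
  ext i
  simp

/-- comparison of the increments -/
theorem kl_incr {nu : (∀ p : ι × Fin N, V p.1) → ℝ} (hnu : IsLaw nu) {mu : (∀ i, V i) → ℝ}
    (hmu : IsLaw mu) (hac : AC nu (rep mu N)) {A A' : Finset (ι × Fin N)} (hAA : A ⊆ A')
    {r : Fin N} (hA' : sl A' r = ∅) (S : Finset ι) :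
    kl nu (rep mu N) (A ∪ S ×ˢ {r}) - kl nu (rep mu N) A ≤
      kl nu (rep mu N) (A' ∪ S ×ˢ {r}) - kl nu (rep mu N) A' := by
  have hP := isLaw_rep hmu N
  have hA : sl A r = ∅ := by
    rw [Finset.eq_empty_iff_forall_notMem] at hA' ⊢
    exact fun i hi => hA' i (mem_sl.2 (hAA (mem_sl.1 hi)))
  have h1 : ∀ B : Finset (ι × Fin N), sl B r = ∅ →
      lm nu (rep mu N) (B ∪ S ×ˢ {r}) - lm nu (rep mu N) B =
        ∑ y, nu y * Real.log (marg mu S (sly y r)) := by
    intro B hB
    unfold lm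
    rw [← Finset.sum_sub_distrib]
    refine Finset.sum_congr rfl fun y _ => ?_
    by_cases h0 : nu y = 0
    · rw [h0]
      ring
    · have h2 : 0 < rep mu N y := lt_of_le_of_ne (hP.1 y) fun h => h0 (hac y h.symm)
      have h3 : 0 < marg (rep mu N) B y := lt_of_lt_of_le h2 (le_marg hP.1 B y)
      have h4 : 0 < marg (rep mu N) (B ∪ S ×ˢ {r}) y := lt_of_lt_of_le h2 (le_marg hP.1 _ y)
      rw [marg_union hmu hB] at h4 ⊢
      have h5 : marg mu S (sly y r) ≠ 0 := fun h => by
        rw [h, mul_zero] at h4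
        exact lt_irrefl _ h4
      rw [Real.log_mul h3.ne' h5]
      ring
  have h2 := h1 A hA
  have h3 := h1 A' hA'
  have h4 := lm_supermod hnu (B := S ×ˢ {r}) hAA
  simp only [kl_eq hnu.1 hP.1 hac]
  linarith

/-- the joint law of the first replicas and of the replica `r` -/
noncomputable def jt (nu : (∀ p : ι × Fin N, V p.1) → ℝ) (r : Fin N)
    (z : ∀ p : {p // p ∈ Fl ι N r}, V p.1.1) (x : ∀ i, V i) : ℝ :=
  ∑ y, if rst (Fl ι N r) y = z ∧ sly y r = x then nu y else 0

theorem sum_jt (nu : (∀ p : ι × Fin N, V p.1) → ℝ) (r : Fin N)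
    (F : (∀ p : {p // p ∈ Fl ι N r}, V p.1.1) → (∀ i, V i) → ℝ) :
    ∑ z, ∑ x, jt nu r z x * F z x = ∑ y, nu y * F (rst (Fl ι N r) y) (sly y r) := by
  unfold jt
  simp only [Finset.sum_mul]
  rw [Finset.sum_congr rfl fun z _ => Finset.sum_comm, Finset.sum_comm]
  refine Finset.sum_congr rfl fun y _ => ?_
  rw [Finset.sum_eq_single (rst (Fl ι N r) y)]
  · rw [Finset.sum_eq_single (sly y r)]
    · rw [if_pos ⟨rfl, rfl⟩]
    · intro x _ hx
      rw [if_neg fun h => hx h.2.symm, zero_mul]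
    · intro h
      exact absurd (Finset.mem_univ _) h
  · intro z _ hz
    refine Finset.sum_eq_zero fun x _ => ?_
    rw [if_neg fun h => hz h.1.symm, zero_mul]
  · intro h
    exact absurd (Finset.mem_univ _) h

theorem sum_jt_right (nu : (∀ p : ι × Fin N, V p.1) → ℝ) (r : Fin N)
    (z : ∀ p : {p // p ∈ Fl ι N r}, V p.1.1) :
    ∑ x, jt nu r z x = push (rst (Fl ι N r)) nu z := by
  unfold jt push
  rw [Finset.sum_comm, Finset.sum_filter]
  refine Finset.sum_congr rfl fun y _ => ?_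
  rw [Finset.sum_eq_single (sly y r)]
  · by_cases h : rst (Fl ι N r) y = z
    · rw [if_pos ⟨h, rfl⟩, if_pos h]
    · rw [if_neg fun h' => h h'.1, if_neg h]
  · intro x _ hx
    exact if_neg fun h => hx h.2.symm
  · intro h
    exact absurd (Finset.mem_univ _) h

/-- the partial marginals of the joint law -/
theorem marg_jt (nu : (∀ p : ι × Fin N, V p.1) → ℝ) (r : Fin N) (S : Finset ι)
    (y : ∀ p : ι × Fin N, V p.1) :
    marg (jt nu r (rst (Fl ι N r) y)) S (sly y r) = marg nu (Fl ι N r ∪ S ×ˢ {r}) y := by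
  unfold marg jt
  simp only [← Finset.sum_filter]
  rw [Finset.sum_comm' (t' := univ.filter fun y' : (∀ p : ι × Fin N, V p.1) =>
      ∀ p ∈ Fl ι N r ∪ S ×ˢ {r}, y' p = y p) (s' := fun y' => {sly y' r})]
  · simp
  · intro x y'
    simp only [Finset.mem_filter, Finset.mem_univ, true_and, Finset.mem_singleton, rst_eq_iff]
    constructor
    · rintro ⟨h1, h2, h3⟩
      refine ⟨h3.symm, ?_⟩
      intro p hp
      rcases Finset.mem_union.1 hp with hp | hp
      · exact h2 p hp
      · obtain ⟨i, r'⟩ := p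
        rw [Finset.mem_product, Finset.mem_singleton] at hp
        obtain ⟨hp1, hp2⟩ := hp
        have hp2' : r' = r := hp2
        subst hp2'
        have h4 := h1 i hp1
        rw [← h3] at h4
        exact h4
    · rintro ⟨h1, h2⟩
      refine ⟨?_, fun p hp => h2 p (Finset.mem_union_left _ hp), h1.symm⟩
      intro i hi
      rw [h1]
      exact h2 (i, r) (Finset.mem_union_right _ (by simp [hi]))

theorem jt_nonneg {nu : (∀ p : ι × Fin N, V p.1) → ℝ} (hnu : ∀ y, 0 ≤ nu y) (r : Fin N)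
    (z : ∀ p : {p // p ∈ Fl ι N r}, V p.1.1) (x : ∀ i, V i) : 0 ≤ jt nu r z x := by
  unfold jt
  refine Finset.sum_nonneg fun y _ => ?_
  split_ifs
  · exact hnu y
  · exact le_rfl

theorem marg_div {ι : Type*} [Fintype ι] [DecidableEq ι] {V : ι → Type*} [∀ i, Fintype (V i)]
    [∀ i, DecidableEq (V i)] (nu : (∀ i, V i) → ℝ) (c : ℝ) (S : Finset ι) (x : ∀ i, V i) :
    marg (fun x' => nu x' / c) S x = marg nu S x / c := by
  unfold marg
  rw [Finset.sum_div]
  refine Finset.sum_congr rfl fun x' _ => ?_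
  split_ifs
  · rfl
  · rw [zero_div]

theorem marg_mono {ι : Type*} [Fintype ι] [DecidableEq ι] {V : ι → Type*} [∀ i, Fintype (V i)]
    [∀ i, DecidableEq (V i)] {nu rho : (∀ i, V i) → ℝ} {C : ℝ} (h : ∀ x, nu x ≤ C * rho x)
    (S : Finset ι) (x : ∀ i, V i) : marg nu S x ≤ C * marg rho S x := by
  unfold marg
  rw [Finset.mul_sum]
  refine Finset.sum_le_sum fun x' _ => ?_
  split_ifs
  · exact h x'
  · rw [mul_zero]

/-- the bound of the joint law -/
theorem jt_le {nu : (∀ p : ι × Fin N, V p.1) → ℝ} {mu : (∀ i, V i) → ℝ} (hmu : IsLaw mu) {C : ℝ}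
    (hC : 0 ≤ C) (h : ∀ y, nu y ≤ C * rep mu N y) (r : Fin N)
    (z : ∀ p : {p // p ∈ Fl ι N r}, V p.1.1) (x : ∀ i, V i) :
    jt nu r z x ≤ C * push (rst (Fl ι N r)) (rep mu N) z * mu x := by
  have hP := isLaw_rep hmu N
  by_cases hy : ∃ y : (∀ p : ι × Fin N, V p.1), rst (Fl ι N r) y = z ∧ sly y r = x
  · obtain ⟨y, rfl, rfl⟩ := hy
    have h1 := marg_jt nu r univ y
    rw [marg_univ] at h1
    have h2 := marg_mono h (Fl ι N r ∪ univ ×ˢ {r}) y
    rw [marg_union hmu (sl_Fl r), marg_univ, ← h1] at h2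
    have h3 : push (rst (Fl ι N r)) (rep mu N) (rst (Fl ι N r) y) =
        marg (rep mu N) (Fl ι N r) y := push_rst (Fl ι N r) (rep mu N) y
    rw [h3, mul_assoc]
    exact h2
  · have h1 : jt nu r z x = 0 := by
      unfold jt
      exact Finset.sum_eq_zero fun y _ => if_neg fun h' => hy ⟨y, h'⟩
    rw [h1]
    exact mul_nonneg (mul_nonneg hC (push_nonneg hP.1 _ z)) (hmu.1 x)

/-- the increment as an average of relative entropies of conditional laws -/
theorem kl_diff {nu : (∀ p : ι × Fin N, V p.1) → ℝ} (hnu : IsLaw nu) {mu : (∀ i, V i) → ℝ}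
    (hmu : IsLaw mu) (hac : AC nu (rep mu N)) (r : Fin N) (S : Finset ι) :
    kl nu (rep mu N) (Fl ι N r ∪ S ×ˢ {r}) - kl nu (rep mu N) (Fl ι N r) =
      ∑ z, (∑ x, jt nu r z x) *
        KL (push (rst S) fun x => jt nu r z x / ∑ x', jt nu r z x') (push (rst S) mu) := by
  have hP := isLaw_rep hmu N
  have h1 : ∀ z : (∀ p : {p // p ∈ Fl ι N r}, V p.1.1), (∑ x, jt nu r z x) *
        KL (push (rst S) fun x => jt nu r z x / ∑ x', jt nu r z x') (push (rst S) mu) =
      ∑ x, jt nu r z x * Real.log ((marg (jt nu r z) S x / ∑ x', jt nu r z x') / marg mu S x) := by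
    intro z
    rw [KL_rst, Finset.mul_sum]
    refine Finset.sum_congr rfl fun x _ => ?_
    rw [marg_div]
    by_cases h0 : ∑ x', jt nu r z x' = 0
    · have h2 : jt nu r z x = 0 :=
        (Finset.sum_eq_zero_iff_of_nonneg fun x' _ => jt_nonneg hnu.1 r z x').1 h0 x
          (Finset.mem_univ x)
      rw [h0, h2]
      ring
    · rw [← mul_assoc, mul_div_cancel₀ _ h0]
  rw [Finset.sum_congr rfl fun z _ => h1 z,
    sum_jt nu r fun z x => Real.log ((marg (jt nu r z) S x / ∑ x', jt nu r z x') / marg mu S x)]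
  unfold kl
  rw [← Finset.sum_sub_distrib]
  refine Finset.sum_congr rfl fun y _ => ?_
  by_cases h0 : nu y = 0
  · rw [h0]
    ring
  have hn : 0 < nu y := lt_of_le_of_ne (hnu.1 y) (Ne.symm h0)
  have h2 : 0 < rep mu N y := lt_of_le_of_ne (hP.1 y) fun h => h0 (hac y h.symm)
  have h3 : 0 < marg (rep mu N) (Fl ι N r) y := lt_of_lt_of_le h2 (le_marg hP.1 _ y)
  have h4 : 0 < marg (rep mu N) (Fl ι N r ∪ S ×ˢ {r}) y := lt_of_lt_of_le h2 (le_marg hP.1 _ y)
  have h5 : 0 < marg nu (Fl ι N r) y := lt_of_lt_of_le hn (le_marg hnu.1 _ y)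
  have h6 : 0 < marg nu (Fl ι N r ∪ S ×ˢ {r}) y := lt_of_lt_of_le hn (le_marg hnu.1 _ y)
  rw [marg_union hmu (sl_Fl r)] at h4 ⊢
  have h7 : marg mu S (sly y r) ≠ 0 := fun h => by
    rw [h, mul_zero] at h4
    exact lt_irrefl _ h4
  have h8 : push (rst (Fl ι N r)) nu (rst (Fl ι N r) y) = marg nu (Fl ι N r) y :=
    push_rst (Fl ι N r) nu y
  rw [marg_jt, sum_jt_right, h8, Real.log_div h6.ne' h4.ne', Real.log_div h5.ne' h3.ne',
    Real.log_mul h3.ne' h7, Real.log_div (div_pos h6 h5).ne' h7, Real.log_div h6.ne' h5.ne']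
  ring

/-- one replica -/
theorem tens_step {t : ι → ℝ} (ht0 : ∀ i, 0 ≤ t i) (ht1 : ∀ i, t i ≤ 1)
    {ε e1 K C : ℝ} (hε : 0 ≤ ε) (he1 : 0 ≤ e1) (hC : 0 ≤ C) (hK : Real.exp 1 ≤ K)
    {mu : (∀ i, V i) → ℝ} (hmu : IsLaw mu) (hM : MEIK t ε e1 K mu)
    {nu : (∀ p : ι × Fin N, V p.1) → ℝ} (hnu : IsLaw nu) (h : ∀ y, nu y ≤ C * rep mu N y)
    (r : Fin N) :
    ∑ S : Finset ι, bw t S *
        (kl nu (rep mu N) (Fl ι N r ∪ S ×ˢ {r}) - kl nu (rep mu N) (Fl ι N r)) ≤
      ε * (kl nu (rep mu N) (Fl ι N (r + 1)) - kl nu (rep mu N) (Fl ι N r)) +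
        (e1 + C * Real.log K / K) := by
  have hP := isLaw_rep hmu N
  have hac : AC nu (rep mu N) := by
    intro y hy
    have h1 := h y
    rw [hy, mul_zero] at h1
    exact le_antisymm h1 (hnu.1 y)
  have hJ1 : ∑ z, ∑ x, jt nu r z x = 1 := by
    have h2 := sum_jt nu r fun _ _ => 1
    simp only [mul_one] at h2
    rw [h2, hnu.2]
  have hα0 : ∀ z, 0 ≤ push (rst (Fl ι N r)) (rep mu N) z := push_nonneg hP.1 _
  have hα1 : ∑ z, push (rst (Fl ι N r)) (rep mu N) z = 1 := (hP.push _).2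
  have h1 := mix ht0 ht1 hε he1 hC hK hmu hM (jt_nonneg hnu.1 r) hJ1 hα0 hα1 (jt_le hmu hC h r)
  have h2 := kl_diff hnu hmu hac r univ
  simp only [KL_rst_univ] at h2
  rw [Fl_succ, h2]
  have h3 : ∀ S : Finset ι, bw t S *
      (kl nu (rep mu N) (Fl ι N r ∪ S ×ˢ {r}) - kl nu (rep mu N) (Fl ι N r)) =
      bw t S * ∑ z, (∑ x, jt nu r z x) *
        KL (push (rst S) fun x => jt nu r z x / ∑ x', jt nu r z x') (push (rst S) mu) := by
    intro S
    rw [kl_diff hnu hmu hac r S]
  rw [Finset.sum_congr rfl fun S _ => h3 S]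
  exact h1

/-- **tensorisation** -/
theorem tens {t : ι → ℝ} (ht0 : ∀ i, 0 ≤ t i) (ht1 : ∀ i, t i ≤ 1)
    {ε e1 K C : ℝ} (hε : 0 ≤ ε) (he1 : 0 ≤ e1) (hC : 0 ≤ C) (hK : Real.exp 1 ≤ K)
    {mu : (∀ i, V i) → ℝ} (hmu : IsLaw mu) (hM : MEIK t ε e1 K mu) (N : ℕ) :
    MEIK (rt t N) ε (N * (e1 + C * Real.log K / K)) C
      (rep mu N : (∀ p : ι × Fin N, V p.1) → ℝ) := by
  intro nu hnu h
  have hP := isLaw_rep (V := V) hmu N
  have hac : AC nu (rep mu N) := by
    intro y hy
    have h1 := h y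
    rw [hy, mul_zero] at h1
    exact le_antisymm h1 (hnu.1 y)
  have key : ∀ r : ℕ, r ≤ N → ∑ R : Finset (ι × Fin N), bw (rt t N) R *
      kl nu (rep mu N) (R ∩ Fl ι N r) ≤
      ε * kl nu (rep mu N) (Fl ι N r) + r * (e1 + C * Real.log K / K) := by
    intro r
    induction r with
    | zero =>
      intro _
      have h0 : Fl ι N 0 = ∅ := by
        ext p
        simp [mem_Fl]
      have h1 : kl nu (rep mu N) (∅ : Finset (ι × Fin N)) = 0 := by
        unfold kl
        refine Finset.sum_eq_zero fun y _ => ?_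
        rw [marg_empty hnu, marg_empty hP]
        simp
      rw [h0]
      simp only [Finset.inter_empty, h1, mul_zero, Finset.sum_const_zero, Nat.cast_zero, zero_mul,
        add_zero, le_refl]
    | succ r ih =>
      intro hr
      have h1 := ih (Nat.le_of_succ_le hr)
      have h2 := tens_step ht0 ht1 hε he1 hC hK hmu hM hnu h ⟨r, hr⟩
      have h3 : ∀ R : Finset (ι × Fin N), bw (rt t N) R *
          kl nu (rep mu N) (R ∩ Fl ι N (r + 1)) ≤
          bw (rt t N) R * kl nu (rep mu N) (R ∩ Fl ι N r) + bw (rt t N) R *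
          (kl nu (rep mu N) (Fl ι N r ∪ (sl R ⟨r, hr⟩) ×ˢ {⟨r, hr⟩}) -
            kl nu (rep mu N) (Fl ι N r)) := by
        intro R
        have h4 := kl_incr hnu hmu hac (A := R ∩ Fl ι N r) (A' := Fl ι N r)
          Finset.inter_subset_right (r := ⟨r, hr⟩) (sl_Fl (⟨r, hr⟩ : Fin N)) (sl R ⟨r, hr⟩)
        have h5 := inter_Fl_succ R ⟨r, hr⟩
        have hb : 0 ≤ bw (rt t N) R :=
          bw_nonneg (t := rt t N) (fun p => ht0 p.1) (fun p => ht1 p.1) R
        have h6 := mul_le_mul_of_nonneg_left h4 hb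
        rw [← h5] at h6
        linarith
      have h4 := Finset.sum_le_sum fun R (_ : R ∈ (univ : Finset (Finset (ι × Fin N)))) => h3 R
      rw [Finset.sum_add_distrib, sum_bw_slice t ⟨r, hr⟩ fun S =>
        kl nu (rep mu N) (Fl ι N r ∪ S ×ˢ {⟨r, hr⟩}) - kl nu (rep mu N) (Fl ι N r)] at h4
      push_cast
      linarith
  have h1 := key N le_rfl
  have h2 : Fl ι N N = univ := by
    ext p
    simp [mem_Fl]
  rw [h2] at h1
  have h3 : kl nu (rep mu N) (univ : Finset (ι × Fin N)) = KL nu (rep mu N) := by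
    unfold kl KL
    exact Finset.sum_congr rfl fun y _ => by rw [marg_univ, marg_univ]
  rw [h3] at h1
  refine le_trans (le_of_eq (Finset.sum_congr rfl fun R _ => ?_)) h1
  rw [Finset.inter_univ, KL_rst (ι := ι × Fin N) (V := fun p => V p.1) R]
  rfl

/-- the form used in block [B] -/
theorem Tens {t : ι → ℝ} (ht0 : ∀ i, 0 ≤ t i) (ht1 : ∀ i, t i ≤ 1)
    {ε e1 K κ δ : ℝ} (hε : 0 ≤ ε) (he1 : 0 ≤ e1) (hδ : 0 < δ) (hK : Real.exp 1 ≤ K * δ)
    {mu : (∀ i, V i) → ℝ} (hmu : IsLaw mu) {N : ℕ}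
    (hN : N * (e1 + Real.log K / (K * δ)) ≤ ε * κ) (hM : MEIK t ε e1 K mu) :
    MEIr (rt t N) ε κ δ (rep mu N : (∀ p : ι × Fin N, V p.1) → ℝ) := by
  intro E hE0 hE
  have hP := isLaw_rep (V := V) hmu N
  have hE1 : ∑ x ∈ E, rep mu N x ≤ 1 := by
    rw [← hP.2]
    exact Finset.sum_le_sum_of_subset_of_nonneg (Finset.subset_univ E) fun x _ _ => hP.1 x
  have hδ1 : δ ≤ 1 := hE.trans hE1
  have hKpos : 0 < K := by
    have h1 : 0 < K * δ := lt_of_lt_of_le (Real.exp_pos 1) hK
    exact (pos_iff_pos_of_mul_pos h1).2 hδ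
  have hK1 : Real.exp 1 ≤ K := hK.trans (by nlinarith)
  have h1 := tens ht0 ht1 hε he1 (inv_nonneg.2 hδ.le) hK1 hmu hM N _ (isLaw_res hP.1 hE0)
    (fun y => by
      unfold res
      split_ifs
      · rw [div_eq_mul_inv, mul_comm]
        exact mul_le_mul_of_nonneg_right (inv_anti₀ hδ hE) (hP.1 y)
      · exact mul_nonneg (inv_nonneg.2 hδ.le) (hP.1 y))
  rw [KL_res hP.1 hE0] at h1
  have h2 : δ⁻¹ * Real.log K / K = Real.log K / (K * δ) := by
    field_simp
  rw [h2] at h1
  linarith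

end rep

end Vale.Agent.P042.H48
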