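import Vale.Agent.P042.H48.Tens

/-!
# P042, (I3): mutual informations and total correlations of the restrictions of a law

`ne mu R` is the mean of the logarithm of the `R`-marginal (negative entropy); `MI mu i R` the mutual
information of the coordinate `i` and of the coordinates in `R`; `TC` the total correlation.
-/

set_option autoImplicit false
set_option linter.unusedSectionVars false

namespace Vale.Agent.P042.H48

open Finset Vale.Agent.P042.H461 Vale.Agent.P042.H416 Vale.Agent.P042.H742
open Vale.Agent.P042.H779 (marg m1)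

variable {ι : Type*} [Fintype ι] [DecidableEq ι] {V : ι → Type*} [∀ i, Fintype (V i)]
  [∀ i, DecidableEq (V i)]

/-- negative entropy of the restriction to `R` -/
noncomputable def ne (mu : (∀ i, V i) → ℝ) (R : Finset ι) : ℝ := lm mu mu R

/-- mutual information of the coordinate `i` and of the coordinates in `R` -/
noncomputable def MI (mu : (∀ i, V i) → ℝ) (i : ι) (R : Finset ι) : ℝ :=
  ne mu (insert i R) - ne mu {i} - ne mu R

/-- total correlation -/
noncomputable def TC (mu : (∀ i, V i) → ℝ) (R : Finset ι) : ℝ := ne mu R - ∑ i ∈ R, ne mu {i}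

theorem ne_empty {mu : (∀ i, V i) → ℝ} (h : IsLaw mu) : ne mu ∅ = 0 := by
  unfold ne lm
  refine Finset.sum_eq_zero fun y _ => ?_
  rw [marg_empty h, Real.log_one, mul_zero]

theorem TC_empty {mu : (∀ i, V i) → ℝ} (h : IsLaw mu) : TC mu ∅ = 0 := by
  unfold TC
  rw [ne_empty h]
  simp

/-- the increment of the negative entropy is monotone -/
theorem inc_mono {mu : (∀ i, V i) → ℝ} (h : IsLaw mu) {A A' : Finset ι} (hA : A ⊆ A') (i : ι) :
    ne mu (insert i A) - ne mu A ≤ ne mu (insert i A') - ne mu A' := by
  have h1 := lm_supermod h (B := {i}) hA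
  have h2 : ∀ A : Finset ι, A ∪ {i} = insert i A := fun A => by
    rw [Finset.union_comm, Finset.insert_eq]
  rw [h2, h2] at h1
  exact h1

theorem MI_mono {mu : (∀ i, V i) → ℝ} (h : IsLaw mu) {A A' : Finset ι} (hA : A ⊆ A') (i : ι) :
    MI mu i A ≤ MI mu i A' := by
  have := inc_mono h hA i
  unfold MI
  linarith

theorem MI_nonneg {mu : (∀ i, V i) → ℝ} (h : IsLaw mu) (i : ι) (A : Finset ι) :
    0 ≤ MI mu i A := by
  have h1 := inc_mono h (Finset.empty_subset A) i
  have h2 : (insert i (∅ : Finset ι)) = {i} := rfl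
  rw [ne_empty h, h2] at h1
  unfold MI
  linarith

/-- the negative entropy is antitone -/
theorem ne_anti {mu : (∀ i, V i) → ℝ} (h : IsLaw mu) {A A' : Finset ι} (hA : A ⊆ A') :
    ne mu A' ≤ ne mu A := by
  unfold ne lm
  refine Finset.sum_le_sum fun y _ => ?_
  rcases (h.1 y).eq_or_lt with h0 | h0
  · rw [← h0, zero_mul, zero_mul]
  refine mul_le_mul_of_nonneg_left (Real.log_le_log (lt_of_lt_of_le h0 (le_marg h.1 A' y)) ?_) h0.le
  unfold marg
  refine Finset.sum_le_sum fun x _ => ?_
  by_cases hx : ∀ i ∈ A', x i = y i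
  · rw [if_pos hx, if_pos fun i hi => hx i (hA hi)]
  · rw [if_neg hx]
    split_ifs
    · exact h.1 x
    · exact le_rfl

theorem MI_le {mu : (∀ i, V i) → ℝ} (h : IsLaw mu) (i : ι) (A : Finset ι) :
    MI mu i A ≤ -ne mu {i} := by
  have := ne_anti h (Finset.subset_insert i A)
  unfold MI
  linarith

/-- forward chain -/
theorem chain_ge {mu : (∀ i, V i) → ℝ} (h : IsLaw mu) (R R' : Finset ι) :
    ∑ i ∈ R', (ne mu (insert i R) - ne mu R) ≤ ne mu (R ∪ R') - ne mu R := by
  induction R' using Finset.induction_on with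
  | empty => simp
  | insert i R' hi ih =>
    rw [Finset.sum_insert hi]
    have h1 := inc_mono h (Finset.subset_union_left (s₁ := R) (s₂ := R')) i
    have h2 : R ∪ insert i R' = insert i (R ∪ R') := Finset.union_insert i R R'
    rw [h2]
    linarith

/-- backward chain -/
theorem chain_le {mu : (∀ i, V i) → ℝ} (h : IsLaw mu) (A B : Finset ι) (hAB : Disjoint A B) :
    ne mu (A ∪ B) - ne mu A ≤
      ∑ i ∈ B, (ne mu (A ∪ B) - ne mu ((A ∪ B).erase i)) := by
  induction B using Finset.induction_on with
  | empty => simp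
  | insert i B hi ih =>
    have hAB' : Disjoint A B := Finset.disjoint_of_subset_right (Finset.subset_insert i B) hAB
    have hiA : i ∉ A := fun h' => (Finset.disjoint_left.1 hAB h') (Finset.mem_insert_self i B)
    have hiAB : i ∉ A ∪ B := by
      rw [Finset.mem_union]
      rintro (h' | h')
      · exact hiA h'
      · exact hi h'
    have h1 := ih hAB'
    have h2 : A ∪ insert i B = insert i (A ∪ B) := Finset.union_insert i A B
    rw [h2, Finset.sum_insert hi, Finset.erase_insert hiAB]
    have h3 : ∑ j ∈ B, (ne mu (A ∪ B) - ne mu ((A ∪ B).erase j)) ≤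
        ∑ j ∈ B, (ne mu (insert i (A ∪ B)) - ne mu ((insert i (A ∪ B)).erase j)) := by
      refine Finset.sum_le_sum fun j hj => ?_
      have hjm : j ∈ A ∪ B := Finset.mem_union_right _ hj
      have h4 := inc_mono h (Finset.erase_subset_erase j (Finset.subset_insert i (A ∪ B))) j
      rw [Finset.insert_erase hjm, Finset.insert_erase (Finset.mem_insert_of_mem hjm)] at h4
      exact h4
    linarith

theorem TC_nonneg {mu : (∀ i, V i) → ℝ} (h : IsLaw mu) (R : Finset ι) : 0 ≤ TC mu R := by
  have h1 := chain_ge h ∅ R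
  have h2 : ∀ i : ι, (insert i (∅ : Finset ι)) = {i} := fun i => rfl
  simp only [ne_empty h, h2, sub_zero, Finset.empty_union] at h1
  unfold TC
  linarith

/-- the decoupling inequality -/
theorem sum_MI_le {mu : (∀ i, V i) → ℝ} (h : IsLaw mu) (R R' : Finset ι) :
    ∑ i ∈ R', MI mu i R ≤ TC mu (R ∪ R') + ∑ i ∈ R ∩ R', -ne mu {i} := by
  have h1 := chain_ge h R R'
  have h2 := TC_nonneg h R
  have h3 : ∑ i ∈ R', MI mu i R = ∑ i ∈ R', (ne mu (insert i R) - ne mu R) - ∑ i ∈ R', ne mu {i} := by
    rw [← Finset.sum_sub_distrib]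
    exact Finset.sum_congr rfl fun i _ => by unfold MI; ring
  have h4 := Finset.sum_union_inter (s₁ := R) (s₂ := R') (f := fun i => ne mu {i})
  rw [h3, Finset.sum_neg_distrib]
  unfold TC at h2 ⊢
  linarith

/-- one scale of the total correlation -/
theorem TC_step {mu : (∀ i, V i) → ℝ} (h : IsLaw mu) (A B : Finset ι) (hAB : Disjoint A B) :
    TC mu (A ∪ B) - TC mu A ≤ ∑ i ∈ B, MI mu i ((A ∪ B).erase i) := by
  have h1 := chain_le h A B hAB
  have h2 : ∑ i ∈ B, MI mu i ((A ∪ B).erase i) =
      ∑ i ∈ B, (ne mu (A ∪ B) - ne mu ((A ∪ B).erase i)) - ∑ i ∈ B, ne mu {i} := by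
    rw [← Finset.sum_sub_distrib]
    refine Finset.sum_congr rfl fun i hi => ?_
    unfold MI
    rw [Finset.insert_erase (Finset.mem_union_right _ hi)]
    ring
  rw [h2]
  unfold TC
  rw [Finset.sum_union hAB]
  linarith

theorem marg_singleton (mu : (∀ i, V i) → ℝ) (i : ι) (y : ∀ i, V i) :
    marg mu {i} y = m1 mu i (y i) := by
  unfold marg m1
  refine Finset.sum_congr rfl fun x _ => ?_
  simp only [Finset.mem_singleton, forall_eq]

/-- the average over `a` of the relative entropies of the laws pinned at `x_i = a` -/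
theorem sum_KL_ev {mu : (∀ i, V i) → ℝ} (h : IsLaw mu) (i : ι) (R : Finset ι) :
    ∑ a, m1 mu i a * KL (push (rst R) (res (ev i a) mu)) (push (rst R) mu) = MI mu i R := by
  have hm : ∀ a, ∑ x ∈ ev i a, mu x = m1 mu i a := fun a => mass_ev i a mu
  have h1 : ∀ a, m1 mu i a * KL (push (rst R) (res (ev i a) mu)) (push (rst R) mu) =
      ∑ y, if y i = a then mu y * (Real.log (marg mu (insert i R) y) -
        Real.log (marg mu {i} y) - Real.log (marg mu R y)) else 0 := by
    intro a
    rw [KL_rst, Finset.mul_sum]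
    refine Finset.sum_congr rfl fun y _ => ?_
    by_cases ha : y i = a
    · rw [if_pos ha]
      have hres : res (ev i a) mu y = mu y / m1 mu i a := by
        unfold res
        rw [if_pos (by simp [ev, ha]), hm]
      rw [hres]
      by_cases h0 : mu y = 0
      · rw [h0]
        ring
      have hn : 0 < mu y := lt_of_le_of_ne (h.1 y) (Ne.symm h0)
      have h2 : 0 < marg mu {i} y := lt_of_lt_of_le hn (le_marg h.1 _ y)
      have h3 : 0 < marg mu (insert i R) y := lt_of_lt_of_le hn (le_marg h.1 _ y)
      have h4 : 0 < marg mu R y := lt_of_lt_of_le hn (le_marg h.1 _ y)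
      have h5 : m1 mu i a = marg mu {i} y := by rw [marg_singleton, ha]
      have h6 : marg (res (ev i a) mu) R y = marg mu (insert i R) y / m1 mu i a := by
        unfold marg
        rw [Finset.sum_div]
        refine Finset.sum_congr rfl fun x _ => ?_
        unfold res
        rw [hm]
        by_cases hx : x i = a
        · by_cases hxR : ∀ j ∈ R, x j = y j
          · rw [if_pos hxR, if_pos (by simp [ev, hx]), if_pos]
            intro j hj
            rcases Finset.mem_insert.1 hj with hj | hj
            · rw [hj, hx, ha]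
            · exact hxR j hj
          · rw [if_neg hxR, if_neg, zero_div]
            exact fun h' => hxR fun j hj => h' j (Finset.mem_insert_of_mem hj)
        · have hx' : x ∉ ev i a := by simp [ev, hx]
          rw [if_neg hx', ite_self,
            if_neg (fun h' => hx ((h' i (Finset.mem_insert_self i R)).trans ha)), zero_div]
      rw [h6, h5, Real.log_div (div_pos h3 h2).ne' h4.ne', Real.log_div h3.ne' h2.ne',
        ← mul_assoc, mul_div_cancel₀ _ h2.ne']
    · rw [if_neg ha]
      have hres : res (ev i a) mu y = 0 := by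
        unfold res
        exact if_neg (by simp [ev, ha])
      rw [hres]
      ring
  rw [Finset.sum_congr rfl fun a _ => h1 a, Finset.sum_comm]
  have h2 : ∀ y : (∀ i, V i), (∑ a, if y i = a then mu y * (Real.log (marg mu (insert i R) y) -
        Real.log (marg mu {i} y) - Real.log (marg mu R y)) else 0) =
      mu y * Real.log (marg mu (insert i R) y) - mu y * Real.log (marg mu {i} y) -
        mu y * Real.log (marg mu R y) := by
    intro y
    rw [Finset.sum_ite_eq, if_pos (Finset.mem_univ _)]
    ring
  rw [Finset.sum_congr rfl fun y _ => h2 y, Finset.sum_sub_distrib, Finset.sum_sub_distrib]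
  rfl

theorem sum_Iia (t : ι → ℝ) {mu : (∀ i, V i) → ℝ} (h : IsLaw mu) (i : ι) :
    ∑ a, m1 mu i a * Iia t mu i a = ∑ R, bw t R * MI mu i R := by
  unfold Iia
  have h1 : ∀ a, m1 mu i a * ∑ R, bw t R * KL (push (rst R) (res (ev i a) mu)) (push (rst R) mu) =
      ∑ R, bw t R * (m1 mu i a * KL (push (rst R) (res (ev i a) mu)) (push (rst R) mu)) := by
    intro a
    rw [Finset.mul_sum]
    exact Finset.sum_congr rfl fun R _ => by ring
  rw [Finset.sum_congr rfl fun a _ => h1 a, Finset.sum_comm]
  refine Finset.sum_congr rfl fun R _ => ?_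
  rw [← Finset.mul_sum, sum_KL_ev h]

end Vale.Agent.P042.H48
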