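import Mathlib

/-!
helper48 (P042, S.7): the primes of the top moduli.
-/

set_option autoImplicit false

namespace Vale.Agent.P042.H48.Top

open Finset

/-- primes up to `M0` that are neither in `T` nor coordinates of the product space -/
noncomputable def PrT {ι : Type} (T : Finset ℕ) (prm : ι → ℕ) (M0 : ℕ) : Finset ℕ := by
  classical
  exact (range (M0 + 1)).filter (fun p => p.Prime ∧ p ∉ T ∧ ∀ i, prm i ≠ p)

theorem mem_PrT {ι : Type} {T : Finset ℕ} {prm : ι → ℕ} {M0 p : ℕ} :
    p ∈ PrT T prm M0 ↔ p ≤ M0 ∧ p.Prime ∧ p ∉ T ∧ ∀ i, prm i ≠ p := by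
  classical
  unfold PrT
  rw [mem_filter, mem_range, Nat.lt_succ_iff]

end Vale.Agent.P042.H48.Top
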