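import Vale.Agent.P042.H48.Tot3
import Vale.Agent.P042.H482.Pins
import Vale.Agent.P042.H779.MuE

/-!
# P042, (I3): the pinned inequality in exponential form gives the bound of the mutual informations
-/

set_option autoImplicit false
set_option linter.unusedSectionVars false

namespace Vale.Agent.P042.H48

open Finset Vale.Agent.P042.H461 Vale.Agent.P042.H416 Vale.Agent.P042.H742
open Vale.Agent.P042.H779 (marg m1 m1_nonneg m1_sum phi marg_congr)
open Vale.Agent.P042.H779.Ab (Lo At Di gdw Ref PinsE ce tower Loc loc_marg)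
open Vale.Agent.P042.H482 (mi mi_one Di_eq ce_one)

variable {ι : Type*} [Fintype ι] [DecidableEq ι] {V : ι → Type*} [∀ i, Fintype (V i)]
  [∀ i, DecidableEq (V i)] {w : ∀ i, V i → ℝ} {mu : (∀ i, V i) → ℝ}

theorem isLaw_of_ref (H : Ref w mu) : IsLaw mu := ⟨H.prob.nonneg, H.prob.sum_eq⟩

/-- the divergence of the conditional marginal as a relative entropy -/
theorem Di_log (H : Ref w mu) {P : Finset ι} {j : ι} (hj : j ∉ P) {x : ∀ i, V i}
    (hx : 0 < marg mu P x) :
    Di w (gdw w mu) j P x =
      ∑ b, mi mu P (fun _ => 1) j x b * Real.log (mi mu P (fun _ => 1) j x b / w j b) := by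
  rw [Di_eq H hj hx]
  have hw0 : ∀ b, w j b = 0 → mi mu P (fun _ => 1) j x b = 0 := by
    intro b hb
    have h1 := H.ac j b hb
    unfold m1 at h1
    rw [Finset.sum_eq_zero_iff_of_nonneg] at h1
    · unfold mi ce
      rw [Finset.sum_eq_zero, zero_div]
      intro y _
      have h2 := h1 y (Finset.mem_univ y)
      by_cases hy : y j = b
      · rw [if_pos hy] at h2
        rw [h2, zero_mul, ite_self]
      · simp only [if_neg hy, mul_zero, ite_self]
    · intro y _
      split_ifs
      · exact H.prob.nonneg y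
      · exact le_rfl
  have hsum : ∑ b, mi mu P (fun _ => 1) j x b = 1 := by
    have h1 : ∀ b, mi mu P (fun _ => 1) j x b =
        (∑ y, if (∀ i ∈ P, y i = x i) then (if y j = b then mu y else 0) else 0) /
          marg mu P x := by
      intro b
      unfold mi ce
      congr 1
      refine Finset.sum_congr rfl fun y _ => ?_
      simp only [mul_ite, mul_one, mul_zero]
    rw [Finset.sum_congr rfl fun b _ => h1 b, ← Finset.sum_div, Finset.sum_comm, div_eq_one_iff_eq hx.ne']
    unfold marg
    refine Finset.sum_congr rfl fun y _ => ?_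
    split_ifs
    · rw [Finset.sum_ite_eq, if_pos (Finset.mem_univ _)]
    · exact Finset.sum_const_zero
  have h2 : ∀ b, w j b * phi (mi mu P (fun _ => 1) j x b / w j b) =
      mi mu P (fun _ => 1) j x b * Real.log (mi mu P (fun _ => 1) j x b / w j b) -
        mi mu P (fun _ => 1) j x b + w j b := by
    intro b
    by_cases hb : w j b = 0
    · rw [hw0 b hb, hb]
      simp
    · unfold phi
      field_simp
  rw [Finset.sum_congr rfl fun b _ => h2 b, Finset.sum_add_distrib, Finset.sum_sub_distrib, hsum,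
    H.w_sum j]
  ring

theorem mi_loc (P : Finset ι) (j : ι) (b : V j) :
    Loc P (fun x => mi mu P (fun _ => 1) j x b) := Vale.Agent.P042.H779.Ab.ce_loc P _

/-- the mean of the divergence is at least the mutual information -/
theorem MI_le_Di (H : Ref w mu) {P : Finset ι} {j : ι} (hj : j ∉ P) :
    MI mu j P ≤ ∑ x, mu x * Di w (gdw w mu) j P x := by
  have hlaw := isLaw_of_ref H
  have h1 : ∑ x, mu x * Di w (gdw w mu) j P x =
      ∑ x, mu x * Real.log (mi mu P (fun _ => 1) j x (x j) / w j (x j)) := by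
    have h2 : ∀ x, mu x * Di w (gdw w mu) j P x =
        ∑ b, mu x * (Real.log (mi mu P (fun _ => 1) j x b / w j b) *
          ce mu P (fun y => if y j = b then (1 : ℝ) else 0) x) := by
      intro x
      by_cases h0 : mu x = 0
      · rw [h0]
        simp
      have hx : 0 < marg mu P x :=
        lt_of_lt_of_le (lt_of_le_of_ne (hlaw.1 x) (Ne.symm h0)) (le_marg hlaw.1 P x)
      rw [Di_log H hj hx, Finset.mul_sum]
      refine Finset.sum_congr rfl fun b _ => ?_
      have h3 : ce mu P (fun y => if y j = b then (1 : ℝ) else 0) x =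
          mi mu P (fun _ => 1) j x b := rfl
      rw [h3]
      ring
    rw [Finset.sum_congr rfl fun x _ => h2 x, Finset.sum_comm]
    have h3 : ∀ b, ∑ x, mu x * (Real.log (mi mu P (fun _ => 1) j x b / w j b) *
          ce mu P (fun y => if y j = b then (1 : ℝ) else 0) x) =
        ∑ x, mu x * (Real.log (mi mu P (fun _ => 1) j x b / w j b) *
          (if x j = b then (1 : ℝ) else 0)) := by
      intro b
      refine tower H.prob P (K := fun x => Real.log (mi mu P (fun _ => 1) j x b / w j b)) ?_ _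
      intro x y hxy
      have h4 : mi mu P (fun _ => 1) j x b = mi mu P (fun _ => 1) j y b := mi_loc P j b x y hxy
      beta_reduce
      rw [h4]
    rw [Finset.sum_congr rfl fun b _ => h3 b, Finset.sum_comm]
    refine Finset.sum_congr rfl fun x _ => ?_
    rw [← Finset.mul_sum]
    congr 1
    simp only [mul_ite, mul_one, mul_zero]
    rw [Finset.sum_ite_eq, if_pos (Finset.mem_univ _)]
  have h4 : ∀ x, mu x * Real.log (mi mu P (fun _ => 1) j x (x j) / w j (x j)) =
      mu x * Real.log (marg mu (insert j P) x) - mu x * Real.log (marg mu P x) -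
        mu x * Real.log (w j (x j)) := by
    intro x
    by_cases h0 : mu x = 0
    · rw [h0]
      ring
    have hn : 0 < mu x := lt_of_le_of_ne (hlaw.1 x) (Ne.symm h0)
    have h5 : 0 < marg mu P x := lt_of_lt_of_le hn (le_marg hlaw.1 P x)
    have h6 : 0 < marg mu (insert j P) x := lt_of_lt_of_le hn (le_marg hlaw.1 _ x)
    have h7 : w j (x j) ≠ 0 := by
      intro h8
      have h9 := H.ac j _ h8
      have h10 := le_marg hlaw.1 {j} x
      rw [marg_singleton, h9] at h10
      linarith
    rw [mi_one hj, Function.update_eq_self, Real.log_div (div_pos h6 h5).ne' h7,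
      Real.log_div h6.ne' h5.ne']
    ring
  have h8 : ∑ x, mu x * Real.log (w j (x j)) ≤ ne mu {j} := by
    have h9 : ne mu {j} - ∑ x, mu x * Real.log (w j (x j)) = KL (m1 mu j) (w j) := by
      have h10 : KL (m1 mu j) (w j) =
          ∑ b, (∑ x, if x j = b then mu x else 0) * Real.log (m1 mu j b / w j b) := rfl
      rw [h10]
      simp only [Finset.sum_mul, ite_mul, zero_mul]
      rw [Finset.sum_comm]
      unfold ne lm
      rw [← Finset.sum_sub_distrib]
      refine Finset.sum_congr rfl fun x _ => ?_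
      rw [Finset.sum_ite_eq, if_pos (Finset.mem_univ _), marg_singleton]
      by_cases h0 : mu x = 0
      · rw [h0]
        ring
      have hn : 0 < mu x := lt_of_le_of_ne (hlaw.1 x) (Ne.symm h0)
      have h11 : 0 < m1 mu j (x j) := by
        rw [← marg_singleton]
        exact lt_of_lt_of_le hn (le_marg hlaw.1 _ x)
      have h12 : w j (x j) ≠ 0 := fun h13 => h11.ne' (H.ac j _ h13)
      rw [Real.log_div h11.ne' h12]
      ring
    have h10 : 0 ≤ KL (m1 mu j) (w j) :=
      Vale.Agent.P042.H461.KL_nonneg (fun b => m1_nonneg H.prob j b) (fun b => H.w_nonneg j b)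
        (by rw [m1_sum H.prob j, H.w_sum j]) (fun b hb => H.ac j b hb)
    linarith
  rw [h1, Finset.sum_congr rfl fun x _ => h4 x, Finset.sum_sub_distrib, Finset.sum_sub_distrib]
  have h9 : MI mu j P = ∑ x, mu x * Real.log (marg mu (insert j P) x) - ne mu {j} -
      ∑ x, mu x * Real.log (marg mu P x) := rfl
  rw [h9]
  linarith

/-- Jensen for the exponential -/
theorem exp_mean_le {X : Type*} [Fintype X] {nu : X → ℝ} (h : IsLaw nu) (f : X → ℝ) :
    Real.exp (∑ x, nu x * f x) ≤ ∑ x, nu x * Real.exp (f x) := by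
  have h1 := convexOn_exp.map_sum_le (t := (univ : Finset X)) (w := nu) (p := f)
    (fun x _ => h.1 x) h.2 (fun x _ => Set.mem_univ _)
  simpa only [smul_eq_mul] using h1

/-- the pinned inequality for the mutual informations, from the exponential moments -/
theorem pins_MI (H : Ref w mu) {sc : ι → ℕ} {ok' : Finset ι → Prop} {L : ℝ} {lam a : ℕ → ℝ}
    {c : ℕ → ι → ℝ} (HP : PinsE w mu sc ok' L lam a c) (s : ℕ) (P : Finset ι)
    (hP : P ⊆ Lo sc (s + 1)) (hok : ok' P) :
    lam s * ∑ j ∈ At sc s \ P, MI mu j P ≤ ∑ i ∈ P, c s i + a s := by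
  have h1 := (exp_mean_le (isLaw_of_ref H) fun x =>
    lam s * ∑ j ∈ At sc s \ P, Di w (gdw w mu) j P x).trans (HP.pe s P hP hok)
  rw [Real.exp_le_exp] at h1
  refine le_trans ?_ h1
  have h2 : ∑ x, mu x * (lam s * ∑ j ∈ At sc s \ P, Di w (gdw w mu) j P x) =
      lam s * ∑ j ∈ At sc s \ P, ∑ x, mu x * Di w (gdw w mu) j P x := by
    rw [Finset.sum_comm, Finset.mul_sum]
    refine Finset.sum_congr rfl fun x _ => ?_
    rw [← Finset.mul_sum]
    ring
  rw [h2]
  refine mul_le_mul_of_nonneg_left (Finset.sum_le_sum fun j hj => ?_) (HP.lam0 s).le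
  exact MI_le_Di H (Finset.mem_sdiff.1 hj).2

/-- the entropy of one coordinate, from the atoms of the reference -/
theorem neg_ne_le (H : Ref w mu) {L : ℝ} {i : ι}
    (hat : ∀ b, w i b = 0 ∨ Real.exp (-L) ≤ w i b) : -ne mu {i} ≤ L := by
  have hlaw := isLaw_of_ref H
  -- entropy is at most the cross entropy
  have h1 : ne mu {i} = ∑ b, m1 mu i b * Real.log (m1 mu i b) := by
    have h10 : ∑ b, m1 mu i b * Real.log (m1 mu i b) =
          ∑ b, (∑ x, if x i = b then mu x else 0) * Real.log (m1 mu i b) := rfl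
    rw [h10]
    simp only [Finset.sum_mul, ite_mul, zero_mul]
    rw [Finset.sum_comm]
    unfold ne lm
    refine Finset.sum_congr rfl fun x _ => ?_
    rw [Finset.sum_ite_eq, if_pos (Finset.mem_univ _), marg_singleton]
  have hac : AC (m1 mu i) (w i) := fun b hb => H.ac i b hb
  have h2 : Hn (m1 mu i) ≤ -∑ b, m1 mu i b * Real.log (w i b) :=
    Hn_le_cross ⟨fun b => m1_nonneg H.prob i b, m1_sum H.prob i⟩
      ⟨fun b => H.w_nonneg i b, H.w_sum i⟩ hac
  rw [Hn_eq_neg, ← h1] at h2
  have h3 : -∑ b, m1 mu i b * Real.log (w i b) ≤ ∑ b, m1 mu i b * L := by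
    rw [← Finset.sum_neg_distrib]
    refine Finset.sum_le_sum fun b _ => ?_
    rcases hat b with hb | hb
    · rw [hac b hb]
      simp
    · have h4 : -L ≤ Real.log (w i b) := by
        rw [Real.le_log_iff_exp_le (lt_of_lt_of_le (Real.exp_pos _) hb)]
        exact hb
      have h5 := m1_nonneg H.prob i b
      nlinarith
  rw [← Finset.sum_mul, m1_sum H.prob i, one_mul] at h3
  linarith

/-- **(I3) from the pinned inequality** -/
theorem totals_pins (H : Ref w mu) {t u : ι → ℝ} (h0 : ∀ i, 0 ≤ t i)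
    (h1 : ∀ i, t i ≤ 1) (hu0 : ∀ i, 0 ≤ u i) (hu1 : ∀ i, u i ≤ 1)
    (hh : ∀ i, tu t u i ≤ 1 / 2) {sc : ι → ℕ} {ns : ℕ} (hns : ∀ i, sc i < ns) {q : ℕ → ℝ}
    (hq : ∀ i, tu t u i ≤ q (sc i)) (hq0 : ∀ s, 0 ≤ q s)
    {ok' : Finset ι → Prop} [DecidablePred ok'] {L : ℝ} {lam a : ℕ → ℝ} {c : ℕ → ι → ℝ}
    (HP : PinsE w mu sc ok' L lam a c) {bad : ℕ → ℝ}
    (hbad : ∀ s, ∑ R, bw (tu t u) R * (if ok' (R ∩ Lo sc (s + 1)) then 0 else 1) ≤ bad s) :
    ∑ i, u i * ∑ a, m1 mu i a * Iia t mu i a ≤
      ∑ s ∈ range ns, 2 * q s * ((∑ i ∈ Lo sc (s + 1), tu t u i * c s i + a s) / lam s +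
        bad s * ((At sc s).card * L)) + L * ∑ i, u i * t i := by
  have h2 := totals (isLaw_of_ref H) h0 h1 hu0 hu1 hh hns hq hq0 HP.lam0 HP.a0 HP.c0
    (pins_MI H HP) hbad (H := fun _ => L) fun i => neg_ne_le H (HP.atoms i)
  rw [Finset.mul_sum]
  refine h2.trans (add_le_add le_rfl (Finset.sum_le_sum fun i _ => ?_))
  exact le_of_eq (by ring)

end Vale.Agent.P042.H48
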