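import Vale.Agent.P042.H779.HeS

/-!
helper48 (P042, S.7): 779's `hE_S` with `13 d ≤ D` (his proof), for the density of a weight.
-/

set_option autoImplicit false
set_option linter.unusedSectionVars false

namespace Vale.Agent.P042.H48.Top

open Finset Vale.Agent.P042.H482 Vale.Agent.P042.TT.Loc Vale.Agent.P042.UU.Loc
open Vale.Agent.P042.H779.Ab (pw gdw Ref bt)
open Vale.Agent.P042.H779.Ab.Sb
open Vale.Agent.P042.H635 (lawc fcl pF_lawc en_zero cexp_restr cexp_dens)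

/-- **(hE)** for logarithmic power parameters: all restrictions, `24 d ≤ D`. -/
theorem hE_S13 (b : ℕ) (C1 A lam0 th a0 : ℝ) (hC1 : 0 < C1) (hA : 0 ≤ A) (hlam0 : 0 < lam0)
    (hth : 0 < th) (ha0 : 0 ≤ a0) :
    ∃ l0 : ℝ, ∀ l ≥ l0, ∀ {ι : Type} [Fintype ι] [DecidableEq ι] {prm : ι → ℕ}
      {V : ι → Type} [∀ i, Fintype (V i)] [∀ i, DecidableEq (V i)] {w w2 : ∀ i, V i → ℝ}
      {ν : (∀ i, V i) → ℝ} {D : ℕ} {m κ : ℝ} {s : ι → ℝ},
      Function.Injective prm →
      (∀ i, l ^ (20 + 2 * b) ≤ (prm i : ℝ) ∧ (prm i : ℝ) ≤ Real.exp (2 * l) / l ^ (20 + 2 * b)) →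
      th * Real.exp l / l ≤ D →
      ThickS l (l ^ b) A lam0 a0 w w2 ν D m κ →
      (∀ i, 0 ≤ s i) → (∀ i, s i ≤ C1 * l ^ b / √(prm i)) →
      ∀ F : (∀ i, V i) → ℝ, (∀ x, F x = m * (ν x / pw w x)) →
      ∀ d : ℕ, 13 * d ≤ D → ∀ (T : Finset ι) (u : ∀ i, V i), T.card ≤ d →
      TT.Loc.en w s (tr w (d - T.card) (restr T u F)) ≤
        (∏ _i ∈ T, Real.exp (1 / l ^ (16 + 2 * b) + A)) ^ 2 * (18 * (κ * Real.exp a0) ^ 2) := by
  obtain ⟨l1, hl1⟩ := abs2_S b C1 A lam0 th a0 hC1 hA hlam0 hth ha0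
  obtain ⟨l2, hl2⟩ := NumS_exists C1 (A + a0 + 2) lam0 (th / 4) (a0 + 2) hC1 (by linarith) hlam0
    (by linarith) (by linarith)
  refine ⟨max (max l1 l2) ((20 + 2 * b + 1).factorial),
    fun l hl ι _ _ prm V _ _ w w2 ν D m κ s hinj hp hD hT hs0 hs1 F hF d hd T u hTd => ?_⟩
  have hl1' := (le_max_left _ _).trans ((le_max_left _ _).trans hl)
  have hl2' := (le_max_right _ _).trans ((le_max_left _ _).trans hl)
  have hl3 := (le_max_right _ _).trans hl
  obtain ⟨hs12, hmain⟩ := hl1 l hl1' hinj hp hD hT hs0 hs1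
  have N := hl2 l hl2'
  have h0 := N.l0
  have hll := N.hl
  have H := hT.ref
  have hX : 1 ≤ l ^ b := one_le_pow₀ N.l1
  have e20 : l ^ 20 * (l ^ b) ^ 2 = l ^ (20 + 2 * b) := by
    rw [← pow_mul, ← pow_add]
    congr 1
    ring
  have hf : (0 : ℝ) < (20 + 2 * b + 1).factorial := by exact_mod_cast Nat.factorial_pos _
  have hY : 1 ≤ Real.exp (2 * l) / (l ^ 20 * (l ^ b) ^ 2) := by
    rw [e20, one_le_div (by positivity)]
    have h2 := Real.pow_div_factorial_le_exp (2 * l) (by linarith) (20 + 2 * b + 1)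
    refine le_trans ?_ h2
    rw [le_div_iff₀ hf]
    have h3 : l ^ (20 + 2 * b) * (20 + 2 * b + 1).factorial ≤ l ^ (20 + 2 * b) * l :=
      mul_le_mul_of_nonneg_left (by linarith) (by positivity)
    refine h3.trans ?_
    rw [← pow_succ]
    exact pow_le_pow_left₀ h0.le (by linarith) _
  -- the total rate
  have hsum : ∑ i, s i ≤ Real.exp l / l ^ 8 := by
    have h1 := sum_tS N hX hY hinj (R := fun i => s i / 2)
      (fun i => by rw [e20]; exact (hp i).1) (fun i => by rw [e20]; exact (hp i).2)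
      (fun i => by have := hs0 i; have := hs1 i; linarith)
    have h2 : ∑ i, s i ≤ ∑ i, tS l (A + a0 + 2) (fun i => s i / 2) i := by
      refine sum_le_sum fun i _ => ?_
      have h3 := H779.Ab.Sb.tS_nonneg N (R := fun i => s i / 2) (fun i => by have := hs0 i; linarith) i
      have h4 : s i = tauS l (A + a0 + 2) * tS l (A + a0 + 2) (fun i => s i / 2) i := by
        unfold tS
        rw [mul_div_cancel₀ _ N.tau0.ne']
        ring
      have h5 : tauS l (A + a0 + 2) ≤ 1 := by linarith [N.tau15, N.tau0]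
      have h6 := mul_le_mul_of_nonneg_right h5 h3
      rw [h4] at *
      linarith
    refine (h2.trans h1).trans ?_
    rw [div_le_div_iff₀ (by positivity) (by positivity)]
    have h7 : 4.5 * (256 * C1 * Real.exp (2 * (A + a0 + 2) + 1)) ≤ l := by
      have := N.h2
      have := N.B0
      linarith
    have h8 := mul_le_mul_of_nonneg_right h7 (show 0 ≤ Real.exp l * l ^ 8 by positivity)
    calc 4.5 * (256 * C1 * Real.exp (2 * (A + a0 + 2) + 1)) * Real.exp l * l ^ 8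
        = 4.5 * (256 * C1 * Real.exp (2 * (A + a0 + 2) + 1)) * (Real.exp l * l ^ 8) := by ring
      _ ≤ l * (Real.exp l * l ^ 8) := h8
      _ = _ := by ring
  have hDr : 312 * (∑ i, s i) + 156 ≤ D := by
    refine le_trans ?_ hD
    have h2 := N.exp_ge_sq
    have h3 := N.h5
    have h4 : Real.exp l / l ^ 8 ≤ Real.exp l / l ^ 2 := by
      refine div_le_div_of_nonneg_left (Real.exp_pos _).le (by positivity) ?_
      exact pow_le_pow_right₀ N.l1 (by norm_num)
    have h5 : (1 : ℝ) / 2 ≤ Real.exp l / l ^ 2 := by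
      rw [le_div_iff₀ (by positivity)]
      linarith
    have h6 : th * Real.exp l / l = (th / 4 * l) * 4 * (Real.exp l / l ^ 2) := by
      field_simp
    rw [h6]
    have h7 : 200 * 4 * (Real.exp l / l ^ 2) ≤ (th / 4 * l) * 4 * (Real.exp l / l ^ 2) :=
      mul_le_mul_of_nonneg_right (by linarith) (by positivity)
    linarith
  have hNn : (D : ℝ) ≤ 12 * ((D / 12 : ℕ) : ℝ) + 12 := by
    have : D ≤ 12 * (D / 12) + 12 := by omega
    exact_mod_cast this
  have hdr : (13 : ℝ) * d ≤ D := by exact_mod_cast hd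
  have hm1 := hmain T (by omega) u (univ.filter fun S : Finset ι => S.card ≤ D / 12)
    (fun S hS => by
      have := (mem_filter.1 hS).2
      omega)
  have hk : ((d - T.card : ℕ) : ℝ) + 2 * ∑ i, s i ≤ ((D / 12 : ℕ) : ℝ) := by
    have : ((d - T.card : ℕ) : ℝ) ≤ d := by exact_mod_cast Nat.sub_le _ _
    linarith
  have h2 := H527.en_of_moments w H.w_nonneg H.w_sum s hs0 (fun i => (hs12 i).trans (by norm_num))
    (d - T.card) (D / 12) (restr T u F) hk _ (by
      refine le_trans (le_of_eq ?_) hm1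
      refine sum_congr rfl fun S _ => ?_
      unfold Wp bt
      congr 1
      unfold ex
      refine sum_congr rfl fun x _ => ?_
      have e1 : cexp w S (restr T u F) x = m * gdw w ν (T ∪ S) (T.piecewise u x) := by
        rw [cexp_restr, cexp_dens H m hF]
      show wt w x * cexp w S (restr T u F) x ^ 2 = _
      rw [e1]
      rfl)
  refine h2.trans (le_of_eq ?_)
  rw [← Real.exp_sum, sum_const, nsmul_eq_mul, Real.exp_add, mul_comm ((T.card : ℝ))]
  ring

/-- **(hE), integer side**: `F = pF w red S g`, `g ≥ 0` any weight. -/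
theorem hE_S13_side (b : ℕ) (C1 A lam0 th a0 : ℝ) (hC1 : 0 < C1) (hA : 0 ≤ A) (hlam0 : 0 < lam0)
    (hth : 0 < th) (ha0 : 0 ≤ a0) :
    ∃ l0 : ℝ, ∀ l ≥ l0, ∀ {ι : Type} [Fintype ι] [DecidableEq ι] {prm : ι → ℕ}
      {V : ι → Type} [∀ i, Fintype (V i)] [∀ i, DecidableEq (V i)] {w w2 : ∀ i, V i → ℝ}
      {D : ℕ} {κ : ℝ} {s : ι → ℝ} {red : ℤ → ∀ i, V i} {S : Finset ℤ} {g : ℤ → ℝ},
      Function.Injective prm →
      (∀ i, l ^ (20 + 2 * b) ≤ (prm i : ℝ) ∧ (prm i : ℝ) ≤ Real.exp (2 * l) / l ^ (20 + 2 * b)) →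
      th * Real.exp l / l ≤ D →
      (∑ n ∈ S, g n ≠ 0 → ThickS l (l ^ b) A lam0 a0 w w2 (lawc red S g) D
        (∑ n ∈ S, g n) κ) → (∀ n ∈ S, 0 ≤ g n) →
      (∀ i, 0 ≤ s i) → (∀ i, s i ≤ C1 * l ^ b / √(prm i)) →
      ∀ d : ℕ, 13 * d ≤ D → ∀ (T : Finset ι) (u : ∀ i, V i), T.card ≤ d →
      TT.Loc.en w s (tr w (d - T.card) (restr T u (H944.pF w red S g))) ≤
        (∏ _i ∈ T, Real.exp (1 / l ^ (16 + 2 * b) + A)) ^ 2 * (18 * (κ * Real.exp a0) ^ 2) := by
  obtain ⟨l1, hl1⟩ := hE_S13 b C1 A lam0 th a0 hC1 hA hlam0 hth ha0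
  refine ⟨l1, fun l hl ι _ _ prm V _ _ w w2 D κ s red S g hinj hp hD hT hg hs0 hs1 d hd T u
    hTd => ?_⟩
  by_cases h0 : ∑ n ∈ S, g n = 0
  · have hz : ∀ n ∈ S, g n = 0 := (sum_eq_zero_iff_of_nonneg hg).1 h0
    rw [en_zero w s _ T u _ fun x => by
      unfold H944.pF
      rw [sum_eq_zero fun n hn => hz n (mem_filter.1 hn).1, zero_div]]
    positivity
  · exact hl1 l hl hinj hp hD (hT h0) hs0 hs1 _ (fun x => by
      have := pF_lawc (w := w) (red := red) h0 1 x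
      rw [one_mul, one_mul] at this
      exact this) d hd T u hTd

end Vale.Agent.P042.H48.Top
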