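import Vale.Agent.P042.H359.BridgeS

/-!
helper48 (P042, S.7): the pinned inequality of the state for the measures `F_sigma` = the weight `G`
on the cell `{n = c mod qn d}` of a long window, in absolute form (mass scale `kapS`).
-/

set_option autoImplicit false
set_option linter.unusedSectionVars false

namespace Vale.Agent.P042.H48.Top

open Finset Vale.Agent.P042.H779 Vale.Agent.P042.H779.Ab Vale.Agent.P042.H599
  Vale.Agent.P042.H945 Vale.Agent.P042.H359

/-- a priori bound for the mass of a class modulo `qn d` -/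
noncomputable def kapS (N' qn d : ℕ) (τ : ℝ) : ℝ :=
  Real.exp 1 * ((N' : ℝ) / qn) * ((d : ℝ) ^ τ / d)

theorem kapS_pos {N' qn d : ℕ} {τ : ℝ} (hN : 0 < N') (hqn : 1 ≤ qn) (hd : 1 ≤ d) :
    0 < kapS N' qn d τ := by
  have h1 : (0 : ℝ) < N' := by exact_mod_cast hN
  have h2 : (0 : ℝ) < qn := by exact_mod_cast hqn
  have h3 : (0 : ℝ) < d := by exact_mod_cast hd
  unfold kapS
  have := Real.rpow_pos_of_pos h3 τ
  positivity

/-- logarithm of the ratio to the scale -/
theorem log_scale {A qn d c : ℝ} (g V τ : ℝ) (hA : 0 < A) (hq : 0 < qn) (hd : 0 < d)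
    (hc : 0 < c) (hg : 0 < g) (hV : 0 < V) :
    Real.log (A * c * g / (Real.exp 1 * (A / qn) * (d ^ τ / d))) =
      Real.log g + Real.log (qn * d * c * A / V) + (Real.log (V / A) - 1 - τ * Real.log d) := by
  have hdt0 : 0 < d ^ τ := Real.rpow_pos_of_pos hd τ
  have e1 : A * c * g / (Real.exp 1 * (A / qn) * (d ^ τ / d)) =
      g * (qn * d * c * A / V) * (V / A / Real.exp 1 / d ^ τ) := by
    field_simp
  rw [e1, Real.log_mul (by positivity) (by positivity), Real.log_mul hg.ne' (by positivity),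
    Real.log_div (by positivity) hdt0.ne', Real.log_div (by positivity) (Real.exp_pos 1).ne',
    Real.log_exp, Real.log_rpow hd]

section
variable {ι : Type*} [Fintype ι] [DecidableEq ι] {prm : ι → ℕ}
variable {N' : ℕ} {mu : ℕ → ℝ} {G : ℤ → ℝ}
variable {k : ℕ} {κ : ℝ} {C : ℕ} {P : ℝ}

/-- slope of the cells -/
noncomputable def tauS (k : ℕ) (κ : ℝ) (C : ℕ) (P : ℝ) : ℝ := 2 * k * etaS κ C P

theorem V_pos {N' u v : ℕ} (hN0 : 0 < N') (hN : N' ≤ 1000 * (v + 1 - u)) :
    (0 : ℝ) < ((v + 1 - u : ℕ) : ℝ) := by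
  have : 0 < v + 1 - u := by omega
  exact_mod_cast this

/-- the mass of the cell is at most the scale -/
theorem mass_le_kapS (hκ : 0 < κ) (h : StS1 k κ C P N' mu)
    (hG : ∀ n : ℤ, G n = if 1 ≤ n then (N' : ℝ) * mu n.toNat else 0)
    (hl : 0 < Real.log P) (hP : 0 < P)
    {qn d c u v : ℕ} (hqn : 1 ≤ qn) (hd : 1 ≤ d) (hc : c < qn * d)
    (hqP : Real.log ((qn * d : ℕ) : ℝ) ≤ P / (4 * k))
    (hsm : etaS κ C P * (2 * k * Real.log qn + 7) ≤ 1) (hu : 1 ≤ u) (hv : v ≤ N')
    (hN : N' ≤ 1000 * (v + 1 - u)) :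
    ∑ n ∈ cellZ (qn * d) c u v, G n ≤ kapS N' qn d (tauS k κ C P) := by
  have hlaw := h.law
  have hN0 : (0 : ℝ) < N' := by exact_mod_cast hlaw.pos
  have hq0 : (0 : ℝ) < qn := by exact_mod_cast hqn
  have hd0 : (0 : ℝ) < d := by exact_mod_cast hd
  have hV := V_pos hlaw.pos hN
  have hVN : ((v + 1 - u : ℕ) : ℝ) ≤ N' := by
    have : v + 1 - u ≤ N' := by omega
    exact_mod_cast this
  have h1 := cell_le (c := c) hκ h hl hP (Nat.mul_pos hqn hd) hc hqP hu hv hN
  rw [sum_cellZ' hG hu hv]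
  have h2 : Real.exp (etaS κ C P * (2 * k * Real.log ((qn * d : ℕ) : ℝ) + 7)) ≤
      Real.exp 1 * (d : ℝ) ^ (tauS k κ C P) := by
    rw [Real.rpow_def_of_pos hd0, ← Real.exp_add, Real.exp_le_exp]
    unfold tauS
    push_cast
    rw [Real.log_mul hq0.ne' hd0.ne']
    nlinarith
  have h3 : ((qn * d : ℕ) : ℝ) * ms mu N' (cl (qn * d) c u v) * N' ≤
      Real.exp 1 * (d : ℝ) ^ (tauS k κ C P) * N' :=
    h1.trans (mul_le_mul h2 hVN hV.le (by positivity))
  unfold kapS
  have h4 : (0 : ℝ) < (qn : ℝ) * d := mul_pos hq0 hd0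
  rw [← mul_le_mul_iff_of_pos_left h4]
  push_cast at h3
  calc (qn : ℝ) * d * (N' * ms mu N' (cl (qn * d) c u v)) =
        (qn : ℝ) * d * ms mu N' (cl (qn * d) c u v) * N' := by ring
    _ ≤ Real.exp 1 * (d : ℝ) ^ (tauS k κ C P) * N' := h3
    _ = _ := by field_simp

/-- **the pinned inequality of `F_sigma` in absolute form** -/
theorem pin_sig (hk : 1 ≤ k) (hκ : 0 < κ) (e : ℕ) (hC : e + 2 ≤ C) (h : StS1 k κ C P N' mu)
    (hG : ∀ n : ℤ, G n = if 1 ≤ n then (N' : ℝ) * mu n.toNat else 0)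
    [∀ i, NeZero (prm i)] (hinj : Function.Injective prm) (hW : ∀ i, prm i ∈ WS P)
    (hP : 0 < P) (hl : 1 ≤ Real.log P) (hlk : 24 * k ≤ κ * Real.log P)
    {qn d c u v : ℕ} (hqn : 1 ≤ qn) (hd : 1 ≤ d) (hqc : ∀ i, Nat.Coprime (qn * d) (prm i))
    (hu : 1 ≤ u) (hv : v ≤ N') (hN : N' ≤ 1000 * (v + 1 - u))
    (hm : 0 < ms mu N' (cl (qn * d) c u v))
    (hqP : Real.log ((qn * d : ℕ) : ℝ) ≤ P / (8 * k))
    (hsm : etaS κ C P * (2 * k * Real.log qn + 7) ≤ 1)
    {R : Finset ι} (hR : (R.card : ℝ) ≤ thB k * (P / Real.log P)) {x : ∀ i, ZMod (prm i)}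
    (hthick : Real.exp (-(P / (200 * Real.log P))) * kapS N' qn d (tauS k κ C P) ≤
      (∑ n ∈ cellZ (qn * d) c u v, G n) *
        gdw (wS prm N' G) (push (redZ prm) (cellZ (qn * d) c u v) G) R x) :
    lamS / Real.log P * ∑ j ∈ univ \ R,
        Di (wS prm N' G) (gdw (wS prm N' G) (push (redZ prm) (cellZ (qn * d) c u v) G)) j R x ≤
    (1 / Real.log P ^ e) * R.card -
      Real.log ((∑ n ∈ cellZ (qn * d) c u v, G n) *
        gdw (uw prm) (push (redZ prm) (cellZ (qn * d) c u v) G) R x /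
          kapS N' qn d (tauS k κ C P)) := by
  have hlaw := h.law
  have hl0 : 0 < Real.log P := by linarith
  have hk1 : (1 : ℝ) ≤ k := by exact_mod_cast hk
  have hN0 : (0 : ℝ) < N' := by exact_mod_cast hlaw.pos
  have hq0 : (0 : ℝ) < qn := by exact_mod_cast hqn
  have hd0 : (0 : ℝ) < d := by exact_mod_cast hd
  have hd1 : (1 : ℝ) ≤ d := by exact_mod_cast hd
  have hqd : 1 ≤ qn * d := Nat.mul_pos hqn hd
  have hqd0 : (0 : ℝ) < ((qn * d : ℕ) : ℝ) := by exact_mod_cast hqd
  have heta : 0 < etaS κ C P := by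
    unfold etaS
    positivity
  have htau : 0 ≤ tauS k κ C P := by
    unfold tauS
    positivity
  have H : Ref (wS prm N' G) (push (redZ prm) (cellZ (qn * d) c u v) G) :=
    ref_cell (prm := prm) hG hlaw hu hv hm
  have hV := V_pos hlaw.pos hN
  have hVN : ((v + 1 - u : ℕ) : ℝ) ≤ N' := by
    have : v + 1 - u ≤ N' := by omega
    exact_mod_cast this
  have hqm : 0 < ((qn * d : ℕ) : ℝ) * ms mu N' (cl (qn * d) c u v) := mul_pos hqd0 hm
  have hsum := sum_cellZ' (c := c) (q := qn * d) hG hu hv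
  have hkap := kapS_pos (τ := tauS k κ C P) hlaw.pos hqn hd
  have hdt : (1 : ℝ) ≤ (d : ℝ) ^ (tauS k κ C P) := Real.one_le_rpow hd1 htau
  -- the scale is at least `V / (qn d)`
  have hkapV : ((v + 1 - u : ℕ) : ℝ) ≤ ((qn * d : ℕ) : ℝ) * kapS N' qn d (tauS k κ C P) := by
    unfold kapS
    have h1 : ((qn * d : ℕ) : ℝ) * (Real.exp 1 * ((N' : ℝ) / qn) *
        ((d : ℝ) ^ (tauS k κ C P) / d)) = Real.exp 1 * N' * (d : ℝ) ^ (tauS k κ C P) := by
      push_cast
      field_simp
    rw [h1]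
    have h2 : (1 : ℝ) ≤ Real.exp 1 := Real.one_le_exp zero_le_one
    nlinarith [mul_le_mul h2 hdt zero_le_one (by positivity)]
  have hg0 : 0 < gdw (wS prm N' G) (push (redZ prm) (cellZ (qn * d) c u v) G) R x := by
    have h1 : 0 < Real.exp (-(P / (200 * Real.log P))) * kapS N' qn d (tauS k κ C P) := by
      positivity
    have h2 := h1.trans_le hthick
    rw [hsum] at h2
    by_contra hcon
    have h3 := mul_nonpos_of_nonneg_of_nonpos (mul_pos hN0 hm).le (not_lt.1 hcon)
    linarith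
  have hx : 0 < marg (push (redZ prm) (cellZ (qn * d) c u v) G) R x :=
    (gdw_pos_iff H.prob H.w_nonneg H.ac R x).1 hg0
  have hlogD := log_D_le (prm := prm) hP hW hqd R
  have hDpos : (0 : ℝ) < ((qn * d * ∏ i ∈ R, prm i : ℕ) : ℝ) := by
    exact_mod_cast Nat.mul_pos hqd (prod_pos fun i _ => (mem_WS.1 (hW i)).2.pos)
  have hR2 : (R.card : ℝ) * (2 * Real.log P) ≤ P / (8 * k) := by
    have h1 := mul_le_mul_of_nonneg_right hR (show 0 ≤ 2 * Real.log P by positivity)
    have h2 : thB k * (P / Real.log P) * (2 * Real.log P) = 2 * thB k * P := by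
      field_simp
    rw [h2] at h1
    refine h1.trans ?_
    rw [le_div_iff₀ (by positivity)]
    have h3 := thB_le' (k := k) hk
    nlinarith
  have hD : ((qn * d * ∏ i ∈ R, prm i : ℕ) : ℝ) ≤ Real.exp (P / (4 * k)) := by
    rw [← Real.log_le_iff_le_exp hDpos]
    have h1 : P / (4 * k) = P / (8 * k) + P / (8 * k) := by
      field_simp
      norm_num
    linarith
  have hthick1 : Real.exp (-(P / (200 * Real.log P))) * ((v + 1 - u : ℕ) : ℝ) ≤
      gdw (wS prm N' G) (push (redZ prm) (cellZ (qn * d) c u v) G) R x *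
        (((qn * d : ℕ) : ℝ) * ms mu N' (cl (qn * d) c u v)) * N' := by
    have h1 := mul_le_mul_of_nonneg_left hkapV (Real.exp_pos (-(P / (200 * Real.log P)))).le
    have h2 := mul_le_mul_of_nonneg_left hthick hqd0.le
    rw [hsum] at h2
    calc _ ≤ _ := h1
      _ = ((qn * d : ℕ) : ℝ) * (Real.exp (-(P / (200 * Real.log P))) *
            kapS N' qn d (tauS k κ C P)) := by ring
      _ ≤ _ := h2
      _ = _ := by ring
  have hthick' : Real.exp (-(P / (100 * Real.log P))) * ((v + 1 - u : ℕ) : ℝ) ≤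
      gdw (uw prm) (push (redZ prm) (cellZ (qn * d) c u v) G) R x *
        (((qn * d : ℕ) : ℝ) * ms mu N' (cl (qn * d) c u v)) * N' := by
    have h1 := gdw_uw_ge h hG hW H hx
    have h2 := mul_le_mul_of_nonneg_right h1 (mul_nonneg hqm.le hN0.le)
    have h3 := mul_le_mul_of_nonneg_right hthick1 (Real.exp_pos (-(14 * (R.card : ℝ)))).le
    have h4 : Real.exp (-(P / (100 * Real.log P))) ≤
        Real.exp (-(P / (200 * Real.log P))) * Real.exp (-(14 * (R.card : ℝ))) := by
      rw [← Real.exp_add, Real.exp_le_exp]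
      have h5 : (R.card : ℝ) ≤ 1 / 10000 * (P / Real.log P) :=
        hR.trans (mul_le_mul_of_nonneg_right thB_le (by positivity))
      have h6 : P / (100 * Real.log P) = 1 / 100 * (P / Real.log P) := by field_simp
      have h7 : P / (200 * Real.log P) = 1 / 200 * (P / Real.log P) := by field_simp
      have h8 : 0 ≤ P / Real.log P := by positivity
      rw [h6, h7]
      linarith
    calc Real.exp (-(P / (100 * Real.log P))) * ((v + 1 - u : ℕ) : ℝ)
        ≤ Real.exp (-(P / (200 * Real.log P))) * Real.exp (-(14 * (R.card : ℝ))) *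
            ((v + 1 - u : ℕ) : ℝ) := mul_le_mul_of_nonneg_right h4 hV.le
      _ = Real.exp (-(P / (200 * Real.log P))) * ((v + 1 - u : ℕ) : ℝ) *
            Real.exp (-(14 * (R.card : ℝ))) := by ring
      _ ≤ _ := h3
      _ = gdw (wS prm N' G) (push (redZ prm) (cellZ (qn * d) c u v) G) R x *
            Real.exp (-(14 * (R.card : ℝ))) * (((qn * d : ℕ) : ℝ) *
              ms mu N' (cl (qn * d) c u v) * N') := by ring
      _ ≤ _ := h2
      _ = _ := by ring
  have hmain := pin_S h hG hinj hW hl0 hqd hqc hu hv hN hm hx hD hthick'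
  have hgu : 0 < gdw (uw prm) (push (redZ prm) (cellZ (qn * d) c u v) G) R x := by
    have h1 : 0 < Real.exp (-(P / (100 * Real.log P))) * ((v + 1 - u : ℕ) : ℝ) := by positivity
    have h2 := h1.trans_le hthick'
    by_contra hcon
    have h3 : gdw (uw prm) (push (redZ prm) (cellZ (qn * d) c u v) G) R x *
        (((qn * d : ℕ) : ℝ) * ms mu N' (cl (qn * d) c u v)) * N' ≤ 0 :=
      mul_nonpos_of_nonpos_of_nonneg (mul_nonpos_of_nonpos_of_nonneg (not_lt.1 hcon) hqm.le)
        hN0.le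
    linarith
  -- the slope of the pins
  have heta2 : etaS κ C P * (4 * k * Real.log P) ≤ 1 / Real.log P ^ e := by
    unfold etaS
    rw [div_mul_eq_mul_div, div_le_div_iff₀ (by positivity) (by positivity)]
    have h1 : Real.log P ^ (e + 2) ≤ Real.log P ^ C := pow_le_pow_right₀ hl hC
    calc 6 * (4 * k * Real.log P) * Real.log P ^ e
        = (24 * k) * Real.log P ^ (e + 1) := by ring
      _ ≤ (κ * Real.log P) * Real.log P ^ (e + 1) :=
          mul_le_mul_of_nonneg_right hlk (by positivity)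
      _ = κ * Real.log P ^ (e + 2) := by ring
      _ ≤ κ * Real.log P ^ C := mul_le_mul_of_nonneg_left h1 hκ.le
      _ = 1 * (κ * Real.log P ^ C) := (one_mul _).symm
  have h9 : etaS κ C P * (2 * k * Real.log ((qn * d * ∏ i ∈ R, prm i : ℕ) : ℝ) + 7) ≤
      etaS κ C P * (2 * k * Real.log ((qn * d : ℕ) : ℝ) + 7) +
        R.card * (etaS κ C P * (4 * k * Real.log P)) := by
    have h1 : 2 * k * Real.log ((qn * d * ∏ i ∈ R, prm i : ℕ) : ℝ) + 7 ≤
        2 * k * Real.log ((qn * d : ℕ) : ℝ) + 7 + R.card * (4 * k * Real.log P) := by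
      have h2 := mul_le_mul_of_nonneg_left hlogD (show (0 : ℝ) ≤ 2 * k by positivity)
      linarith
    calc etaS κ C P * (2 * k * Real.log ((qn * d * ∏ i ∈ R, prm i : ℕ) : ℝ) + 7)
        ≤ etaS κ C P * (2 * k * Real.log ((qn * d : ℕ) : ℝ) + 7 +
          R.card * (4 * k * Real.log P)) :=
          mul_le_mul_of_nonneg_left h1 heta.le
      _ = _ := by ring
  have h10 : (R.card : ℝ) * (etaS κ C P * (4 * k * Real.log P)) ≤
      R.card * (1 / Real.log P ^ e) := mul_le_mul_of_nonneg_left heta2 (Nat.cast_nonneg _)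
  -- logarithms
  have hlg := log_scale (c := ms mu N' (cl (qn * d) c u v))
    (gdw (uw prm) (push (redZ prm) (cellZ (qn * d) c u v) G) R x)
    ((v + 1 - u : ℕ) : ℝ) (tauS k κ C P) hN0 hq0 hd0 hm hgu hV
  have hVN2 : Real.log (((v + 1 - u : ℕ) : ℝ) / N') ≤ 0 := by
    apply Real.log_nonpos (by positivity)
    rw [div_le_one hN0]
    exact hVN
  have h11 : Real.log ((qn * d : ℕ) : ℝ) = Real.log qn + Real.log d := by
    push_cast
    exact Real.log_mul hq0.ne' hd0.ne'
  have h12 : etaS κ C P * (2 * k * Real.log ((qn * d : ℕ) : ℝ) + 7) ≤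
      1 + tauS k κ C P * Real.log d := by
    rw [h11]
    unfold tauS
    have : etaS κ C P * (2 * k * (Real.log qn + Real.log d) + 7) =
      etaS κ C P * (2 * k * Real.log qn + 7) + 2 * k * etaS κ C P * Real.log d := by ring
    linarith
  rw [hsum]
  unfold kapS
  rw [hlg]
  push_cast at hmain h9 h12 ⊢
  linarith

end

end Vale.Agent.P042.H48.Top
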