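import Vale.Agent.P042.H359.BridgeN
import Vale.Agent.P042.H48.TopQ
import Vale.Agent.P042.H48.TopE
import Vale.Agent.P042.H188.Hlev

/-!
helper48 (P042, S.7): the top cells of the state satisfy 779's `ThickS`.
-/

set_option autoImplicit false
set_option linter.unusedSectionVars false

namespace Vale.Agent.P042.H48.Top

open Finset Vale.Agent.P042.H779 Vale.Agent.P042.H779.Ab Vale.Agent.P042.H599
  Vale.Agent.P042.H945 Vale.Agent.P042.H359

/-- a top cell is one class -/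
theorem tcell_eq {qn d c z : ℕ} (hqn : 1 ≤ qn) (hd : 1 ≤ d) (hcop : Nat.Coprime qn d)
    (hc : c < qn) (u v : ℕ) :
    ∃ c' < qn * d, H188.tcell (cellZ qn c u v) ⟨d, z⟩ = cellZ (qn * d) c' u v := by
  refine ⟨(Nat.chineseRemainder hcop c z : ℕ),
    Nat.chineseRemainder_lt_mul hcop c z (by omega) (by omega), ?_⟩
  obtain ⟨h1, h2⟩ := (Nat.chineseRemainder hcop c z).2
  obtain ⟨k, hk⟩ : ∃ k : ℕ, k = (Nat.chineseRemainder hcop c z : ℕ) := ⟨_, rfl⟩
  have hlt : k < qn * d := hk ▸ Nat.chineseRemainder_lt_mul hcop c z (by omega) (by omega)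
  rw [← hk] at h1 h2 ⊢
  have h1' : (k : ℤ) ≡ (c : ℤ) [ZMOD (qn : ℤ)] := (Int.natCast_modEq_iff).2 h1
  have h2' : (k : ℤ) ≡ (z : ℤ) [ZMOD (d : ℤ)] := (Int.natCast_modEq_iff).2 h2
  have hcopZ : IsCoprime (qn : ℤ) (d : ℤ) := Nat.isCoprime_iff_coprime.2 hcop
  ext n
  simp only [H188.tcell, cellZ, mem_filter, mem_Icc]
  have e1 : n % (qn : ℤ) = (c : ℤ) ↔ n ≡ (c : ℤ) [ZMOD (qn : ℤ)] := by
    unfold Int.ModEq
    rw [Int.emod_eq_of_lt (Nat.cast_nonneg c) (by exact_mod_cast hc)]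
  have e2 : n % ((qn * d : ℕ) : ℤ) = (k : ℤ) ↔ n ≡ (k : ℤ) [ZMOD ((qn * d : ℕ) : ℤ)] := by
    unfold Int.ModEq
    rw [Int.emod_eq_of_lt (Nat.cast_nonneg k) (by exact_mod_cast hlt)]
  have e3 : n ≡ (k : ℤ) [ZMOD ((qn * d : ℕ) : ℤ)] ↔
      (n ≡ (k : ℤ) [ZMOD (qn : ℤ)] ∧ n ≡ (k : ℤ) [ZMOD (d : ℤ)]) := by
    push_cast
    constructor
    · intro h
      exact ⟨h.of_dvd (dvd_mul_right _ _), h.of_dvd (dvd_mul_left _ _)⟩
    · rintro ⟨h3, h4⟩
      have g1 := Int.modEq_iff_dvd.1 h3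
      have g2 := Int.modEq_iff_dvd.1 h4
      exact Int.modEq_iff_dvd.2 (hcopZ.mul_dvd g1 g2)
  rw [e1, e2, e3]
  constructor
  · rintro ⟨⟨h3, h4⟩, h5⟩
    exact ⟨h3, h4.trans h1'.symm, h5.trans h2'.symm⟩
  · rintro ⟨h3, h4, h5⟩
    exact ⟨⟨h3, h4.trans h1'⟩, h5.trans h2'⟩

section
variable {ι : Type} [Fintype ι] [DecidableEq ι] {V : ι → Type} [∀ i, Fintype (V i)]
  [∀ i, DecidableEq (V i)]

theorem lawc_eq_push (red : ℤ → ∀ i, V i) (S : Finset ℤ) (g : ℤ → ℝ) :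
    H635.lawc red S g = push red S g := by
  funext x
  unfold H635.lawc push
  rw [sum_filter]

end

section
variable {ι : Type} [Fintype ι] [DecidableEq ι] {prm : ι → ℕ}
variable {N' : ℕ} {mu : ℕ → ℝ} {G : ℤ → ℝ}
variable {k : ℕ} {κ C2 l : ℝ} {E C : ℕ}

/-- **every top cell is thick in the sense of 779** -/
theorem thick_sig (B : BN k κ C2 E C l) (hk : 1 ≤ k) (hκ : 0 < κ) (hC : 20 ≤ C)
    (h : StS1 k κ C (Real.exp l) N' mu)
    (hG : ∀ n : ℤ, G n = if 1 ≤ n then (N' : ℝ) * mu n.toNat else 0)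
    [∀ i, NeZero (prm i)] (hinj : Function.Injective prm)
    (hW : ∀ i, prm i ∈ WS (Real.exp l)) (h3 : 3 * l ≤ Real.exp l / (200 * l))
    {qn d c u v D : ℕ} (hqn : 1 ≤ qn) (hd : 1 ≤ d)
    (hqc : ∀ i, Nat.Coprime (qn * d) (prm i)) (hc : c < qn * d)
    (hqn2 : (qn : ℝ) ≤ Real.exp (C2 * l ^ E))
    (hqd : Real.log ((qn * d : ℕ) : ℝ) ≤ Real.exp l / (8 * k))
    (hu : 1 ≤ u) (hv : v ≤ N') (hN : N' ≤ 1000 * (v + 1 - u))
    (hD : (D : ℝ) ≤ thB k * (Real.exp l / l))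
    (hm : ∑ n ∈ cellZ (qn * d) c u v, G n ≠ 0) :
    H779.Ab.Sb.ThickS l (l ^ 1) 14 lamS 0 (wS prm N' G) (uw prm)
      (H635.lawc (redZ prm) (cellZ (qn * d) c u v) G) D
      (∑ n ∈ cellZ (qn * d) c u v, G n) (kapS N' qn d (tauS k κ C (Real.exp l))) := by
  have hl := B.l1
  have hl0 : 0 < l := by linarith
  have hk1 : (1 : ℝ) ≤ k := by exact_mod_cast hk
  have hlaw := h.law
  have hN0 : (0 : ℝ) < N' := by exact_mod_cast hlaw.pos
  have hq0 : (0 : ℝ) < qn := by exact_mod_cast hqn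
  have hms : 0 < ms mu N' (cl (qn * d) c u v) := by
    rw [sum_cellZ' hG hu hv] at hm
    exact lt_of_le_of_ne (ms_nonneg hlaw _) fun h0 => hm (by rw [← h0, mul_zero])
  have hlq : Real.log qn ≤ C2 * l ^ E := by rwa [Real.log_le_iff_le_exp hq0]
  have hsm : etaS κ C (Real.exp l) * (2 * k * Real.log qn + 7) ≤ 1 := by
    have h2 := B.e1
    have h4 : etaS κ C (Real.exp l) * (2 * k * Real.log qn + 7) ≤
        etaS κ C (Real.exp l) * (2 * k * (C2 * l ^ E) + 7) := by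
      refine mul_le_mul_of_nonneg_left ?_ ?_
      · have := mul_le_mul_of_nonneg_left hlq (show (0 : ℝ) ≤ 2 * k by positivity)
        linarith
      · unfold etaS
        rw [Real.log_exp]
        positivity
    linarith
  have hlog : Real.log (Real.exp l) = l := Real.log_exp l
  rw [lawc_eq_push]
  refine ⟨ref_cell (prm := prm) hG hlaw hu hv hms, ?_, ?_, bridge_atom B h hG hW, uw_nonneg,
    uw_sum, bridge_w2 h hG hW, ?_⟩
  · rw [sum_cellZ' hG hu hv]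
    exact mul_pos hN0 hms
  · refine mass_le_kapS hκ h hG (by rw [hlog]; exact hl0) (Real.exp_pos l) hqn hd hc
      (hqd.trans ?_) hsm hu hv hN
    gcongr
    norm_num
  · intro R hR x _ hx
    have h4 := pin_sig (R := R) (x := x) hk hκ 18 (by omega) h hG hinj hW
      (Real.exp_pos l) (by rw [hlog]; linarith) (by rw [hlog]; exact B.hlk) hqn hd hqc hu hv hN
      hms hqd hsm (by
        rw [hlog]
        have : (R.card : ℝ) ≤ D := by exact_mod_cast hR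
        exact this.trans hD) (by
        refine le_trans (mul_le_mul_of_nonneg_right ?_ (kapS_pos hlaw.pos hqn hd).le) hx
        rw [hlog, Real.exp_le_exp]
        linarith)
    rw [hlog] at h4
    have e16 : l ^ 16 * (l ^ 1) ^ 2 = l ^ 18 := by ring
    rw [e16, add_zero]
    exact h4

end

end Vale.Agent.P042.H48.Top
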