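import Vale.Agent.P042.H527.MixNv

/-!
helper48 (P042, S.7): the mixed level inequality `mix_nv` of 527 with an extra factor `Zf (T, x)`
in the level hypothesis, whose second moment over `x` is bounded (758's cure).
-/

set_option autoImplicit false
set_option linter.unusedSectionVars false

namespace Vale.Agent.P042.H48.Top

open Finset Vale.Agent.P042.TT.Loc Vale.Agent.P042.UU.Loc Vale.Agent.P042.H527

/-- Young's inequality on a finite probability space: `E (a + 1) ζ ≤ (1 + C) (Y ^ (1 / m) + 1)`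
when `E a ^ m ≤ Y` and `E ζ ^ 2 ≤ C`, `m ≥ 2`. -/
theorem young_sum {Ω : Type} [Fintype Ω] (p a z : Ω → ℝ) (hp : ∀ x, 0 ≤ p x)
    (hp1 : ∑ x, p x = 1) (ha : ∀ x, 0 ≤ a x) (m : ℕ) (hm : 2 ≤ m) {Y C : ℝ} (hY : 0 ≤ Y)
    (hY1 : ∑ x, p x * a x ^ m ≤ Y) (hC : ∑ x, p x * z x ^ 2 ≤ C) :
    ∑ x, p x * ((a x + 1) * z x) ≤ (1 + C) * (Y ^ ((m : ℝ)⁻¹) + 1) := by
  have hm0 : m ≠ 0 := by omega
  have hC0 : 0 ≤ C := (sum_nonneg fun x _ => mul_nonneg (hp x) (sq_nonneg _)).trans hC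
  obtain ⟨th, hth⟩ : ∃ th : ℝ, th = Y ^ ((m : ℝ)⁻¹) := ⟨_, rfl⟩
  have hth0 : 0 ≤ th := hth ▸ Real.rpow_nonneg hY _
  have hthm : th ^ m = Y := hth ▸ Real.rpow_inv_natCast_pow hY hm0
  rw [← hth]
  -- part without `a`
  have h1 : ∑ x, p x * z x ≤ (1 + C) / 2 := by
    have : ∑ x, p x * z x ≤ ∑ x, (p x + p x * z x ^ 2) / 2 := by
      refine sum_le_sum fun x _ => ?_
      have := mul_nonneg (hp x) (sq_nonneg (z x - 1))
      nlinarith
    rw [← sum_div, sum_add_distrib, hp1] at this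
    linarith
  have h2 : ∑ x, p x * (a x * z x) ≤ th * (1 + C / 2) := by
    rcases hth0.eq_or_lt with h0 | h0
    · have hY0 : Y = 0 := by rw [← hthm, ← h0, zero_pow hm0]
      have h3 : ∀ x, p x * a x ^ m = 0 := by
        intro x
        have h4 : ∀ x ∈ (univ : Finset Ω), 0 ≤ p x * a x ^ m := fun x _ =>
          mul_nonneg (hp x) (pow_nonneg (ha x) m)
        have h5 := (sum_eq_zero_iff_of_nonneg h4).1 (le_antisymm (hY0 ▸ hY1) (sum_nonneg h4))
        exact h5 x (mem_univ x)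
      rw [← h0, zero_mul]
      refine le_of_eq (sum_eq_zero fun x _ => ?_)
      rcases mul_eq_zero.1 (h3 x) with h4 | h4
      · rw [h4, zero_mul]
      · rw [pow_eq_zero_iff hm0] at h4
        rw [h4, zero_mul, mul_zero]
    · have key : ∀ x, p x * (a x * z x) ≤
          th * ((p x + (p x * a x ^ m) / Y + p x * z x ^ 2) / 2) := by
        intro x
        obtain ⟨u, hu⟩ : ∃ u : ℝ, u = a x / th := ⟨_, rfl⟩
        have hu0 : 0 ≤ u := hu ▸ div_nonneg (ha x) hth0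
        have hau : a x = th * u := by rw [hu]; field_simp
        have hum : u ^ m = a x ^ m / Y := by rw [hu, div_pow, hthm]
        have h6 : u ^ 2 ≤ 1 + u ^ m := by
          rcases le_total u 1 with h7 | h7
          · have := pow_le_one₀ (n := 2) hu0 h7
            have := pow_nonneg hu0 m
            linarith
          · have := pow_le_pow_right₀ h7 hm
            linarith
        have h8 : u * z x ≤ (1 + u ^ m + z x ^ 2) / 2 := by
          nlinarith [sq_nonneg (u - z x)]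
        have h9 : (p x * a x ^ m) / Y = p x * u ^ m := by rw [hum]; ring
        rw [h9, hau]
        have h10 := mul_le_mul_of_nonneg_left h8 (mul_nonneg hth0 (hp x))
        nlinarith
      refine (sum_le_sum fun x _ => key x).trans ?_
      rw [← mul_sum, ← sum_div, sum_add_distrib, sum_add_distrib, hp1]
      refine mul_le_mul_of_nonneg_left ?_ hth0
      have hYpos : 0 < Y := hthm ▸ pow_pos h0 m
      have h11 : ∑ x, p x * a x ^ m / Y ≤ 1 := by
        rw [← sum_div, div_le_one hYpos]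
        exact hY1
      linarith
  have h3 : ∑ x, p x * ((a x + 1) * z x) = ∑ x, p x * (a x * z x) + ∑ x, p x * z x := by
    rw [← sum_add_distrib]
    exact sum_congr rfl fun x _ => by ring
  rw [h3]
  nlinarith [mul_nonneg hth0 hC0]

variable {ι : Type} [Fintype ι] [DecidableEq ι]
variable {X : ι → Type} [∀ i, Fintype (X i)] [∀ i, DecidableEq (X i)]

/-- **Mixed level inequality with a factor.** -/
theorem mix_nvZ (m : ℕ) (C1 C2 : ℝ) (hm : 2 ≤ m) (hC1 : 0 ≤ C1) (hC2 : 0 ≤ C2)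
    (hone : OneC m C1 C2) (t q r0 c : ι → ℝ) (ht : ∀ i, 0 ≤ t i) (ht1 : ∀ i, t i ≤ 1)
    (hq : ∀ i, 0 ≤ q i) (hr1 : ∀ i, r0 i ≤ 1) (hc : ∀ i, 0 ≤ c i)
    (hC : ∀ i, t i * (q i * q i) * (C1 + C2 * ((q i * (1 + c i)) ^ 2) ^ (m - 1)) ≤ r0 i)
    (π : ∀ i, X i → ℝ) (hπ : ∀ i x, 0 ≤ π i x) (hπ1 : ∀ i, ∑ x, π i x = 1)
    (kk d : ℕ) (hd : (kk : ℝ) + 2 * ∑ i, t i ≤ d)
    {Sg : Type} (SG : Finset Sg) (Fs : Sg → (∀ i, X i) → ℝ) (E Ga : Sg → ℝ)
    (hGa : ∀ sg ∈ SG, 0 < Ga sg) (hE0 : ∀ sg ∈ SG, 0 ≤ E sg)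
    (hE : ∀ sg ∈ SG, ∀ (T : Finset ι) (a : ∀ i, X i), T.card ≤ d → (∀ i ∈ T, π i (a i) ≠ 0) →
      TT.Loc.en π r0 (tr π (d - T.card) (restr T a (Fs sg))) ≤ (∏ i ∈ T, c i) ^ 2 * E sg)
    {Ka : Type} (KA : Finset Ka) (v : Ka → ℝ) (hv : ∀ ka ∈ KA, 0 ≤ v ka)
    (Fk : Ka → (∀ i, X i) → ℝ) (ε : ℝ) (hε : 0 ≤ ε)
    (Zf : Finset ι → (∀ i, X i) → ℝ) (CZ : ℝ) (hCZ : 0 ≤ CZ)
    (hZ : ∀ T : Finset ι, T.card ≤ d → (ex π fun x => Zf T x ^ 2) ≤ CZ)
    (hlev : ∀ (T : Finset ι) (x : ∀ i, X i), T.card ≤ d → (∀ i ∈ T, π i (x i) ≠ 0) →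
      ∀ A : ℝ, 0 ≤ A → (∀ sg ∈ SG, uo q π (Fs sg) (mask T x) ≤ A * Ga sg) →
      ∑ ka ∈ KA, v ka * uo q π (Fk ka) (mask T x) ^ 2 ≤ ε * ((A ^ 2 + 1) * Zf T x)) :
    ∑ W ∈ univ.filter (fun W : Finset ι => W.card ≤ kk),
      (∏ i ∈ W, t i * q i ^ 2) * ∑ ka ∈ KA, v ka * nW π W (Fk ka) ≤
      2 * ε * (1 + CZ) * ((∑ sg ∈ SG, (E sg / Ga sg ^ 2) ^ m) ^ ((m : ℝ)⁻¹) + 1) := by
  classical
  have h2m : 2 * m ≠ 0 := by omega
  have hm0 : m ≠ 0 := by omega
  -- the maximal function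
  set S : Finset ι → (∀ i, X i) → ℝ := fun T x =>
    ∑ sg ∈ SG, (uo q π (Fs sg) (mask T x) / Ga sg) ^ (2 * m) with hS
  have hS0 : ∀ T x, 0 ≤ S T x := fun T x => sum_nonneg fun sg _ => (even_two_mul m).pow_nonneg _
  set A : Finset ι → (∀ i, X i) → ℝ := fun T x => (S T x) ^ (((2 * m : ℕ) : ℝ)⁻¹) with hA
  have hA0 : ∀ T x, 0 ≤ A T x := fun T x => Real.rpow_nonneg (hS0 T x) _
  have hAp : ∀ T x, A T x ^ (2 * m) = S T x := fun T x =>
    Real.rpow_inv_natCast_pow (hS0 T x) h2m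
  have hAmax : ∀ T x, ∀ sg ∈ SG, uo q π (Fs sg) (mask T x) ≤ A T x * Ga sg := by
    intro T x sg hsg
    rw [← div_le_iff₀ (hGa sg hsg)]
    apply le_of_abs_le
    have h1 : |uo q π (Fs sg) (mask T x) / Ga sg| ^ (2 * m) ≤ A T x ^ (2 * m) := by
      rw [hAp, (even_two_mul m).pow_abs]
      exact single_le_sum (f := fun sg => (uo q π (Fs sg) (mask T x) / Ga sg) ^ (2 * m))
        (fun sg _ => (even_two_mul m).pow_nonneg _) hsg
    exact le_of_pow_le_pow_left₀ h2m (hA0 T x) h1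
  -- weights of the pairs
  set p : Finset ι × (∀ i, X i) → ℝ := fun z => Wp t z.1 * wt π z.2 with hp
  have hp0 : ∀ z, 0 ≤ p z := fun z => mul_nonneg (Wp_nonneg t ht ht1 _) (wt_nonneg π hπ _)
  have hwt1 : ∑ x, wt π x = 1 := by
    have h := ex_const π hπ1 1
    unfold ex at h
    simpa using h
  have hp1 : ∑ z : Finset ι × (∀ i, X i), p z = 1 := by
    rw [Fintype.sum_prod_type]
    simp only [hp, ← mul_sum, hwt1, mul_one]
    exact sum_Wp t
  set a : Finset ι × (∀ i, X i) → ℝ := fun z => if z.1.card ≤ d then A z.1 z.2 ^ 2 else 0 with ha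
  have ha0 : ∀ z, 0 ≤ a z := by
    intro z
    simp only [ha]
    split_ifs
    · exact sq_nonneg _
    · exact le_refl _
  set ζ : Finset ι × (∀ i, X i) → ℝ := fun z => if z.1.card ≤ d then Zf z.1 z.2 else 0 with hζ
  set Y : ℝ := ∑ sg ∈ SG, (E sg / Ga sg ^ 2) ^ m with hY
  have hY0 : 0 ≤ Y := sum_nonneg fun sg hsg =>
    pow_nonneg (div_nonneg (hE0 sg hsg) (sq_nonneg _)) m
  have hYm : ∑ z : Finset ι × (∀ i, X i), p z * a z ^ m ≤ Y := by
    have e1 : ∀ z : Finset ι × (∀ i, X i), p z * a z ^ m =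
        ∑ sg ∈ SG, (1 / Ga sg ^ (2 * m)) * (if z.1.card ≤ d then
          Wp t z.1 * (wt π z.2 * uo q π (Fs sg) (mask z.1 z.2) ^ (2 * m)) else 0) := by
      intro z
      by_cases hz : z.1.card ≤ d
      · simp only [ha, hp, hz, if_true]
        rw [← pow_mul, hAp, hS, mul_sum]
        refine sum_congr rfl fun sg _ => ?_
        rw [div_pow]
        ring
      · simp only [ha, hz, if_false, zero_pow hm0, mul_zero, sum_const_zero]
    simp only [e1]
    rw [sum_comm]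
    refine sum_le_sum fun sg hsg => ?_
    rw [← mul_sum]
    have h2 := noisy_moment m C1 C2 (by omega) hC1 hC2 hone t q r0 c ht ht1 hq hr1 hc hC π hπ hπ1
      (Fs sg) d (E sg) (hE0 sg hsg) (hE sg hsg)
    have e2 : ∑ z : Finset ι × (∀ i, X i), (if z.1.card ≤ d then
          Wp t z.1 * (wt π z.2 * uo q π (Fs sg) (mask z.1 z.2) ^ (2 * m)) else 0) =
        ∑ T ∈ univ.filter (fun T : Finset ι => T.card ≤ d), Wp t T *
          (ex π fun x => uo q π (Fs sg) (mask T x) ^ (2 * m)) := by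
      rw [Fintype.sum_prod_type, sum_filter]
      refine sum_congr rfl fun T _ => ?_
      by_cases hT : T.card ≤ d
      · simp only [hT, if_true]
        unfold ex
        rw [mul_sum]
      · simp only [hT, if_false, sum_const_zero]
    rw [e2]
    have h3 : 0 < Ga sg ^ (2 * m) := pow_pos (hGa sg hsg) _
    rw [div_pow, ← pow_mul, one_div, inv_mul_eq_div]
    exact div_le_div_of_nonneg_right h2 h3.le
  have hζ2 : ∑ z : Finset ι × (∀ i, X i), p z * ζ z ^ 2 ≤ CZ := by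
    have e1 : ∑ z : Finset ι × (∀ i, X i), p z * ζ z ^ 2 =
        ∑ T : Finset ι, Wp t T * (if T.card ≤ d then (ex π fun x => Zf T x ^ 2) else 0) := by
      rw [Fintype.sum_prod_type]
      refine sum_congr rfl fun T _ => ?_
      by_cases hT : T.card ≤ d
      · simp only [hT, if_true, hp, hζ]
        unfold ex
        rw [mul_sum]
        refine sum_congr rfl fun x _ => ?_
        ring
      · simp only [hT, if_false, hp, hζ]
        simp
    rw [e1]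
    calc ∑ T : Finset ι, Wp t T * (if T.card ≤ d then (ex π fun x => Zf T x ^ 2) else 0)
        ≤ ∑ T : Finset ι, Wp t T * CZ := by
          refine sum_le_sum fun T _ => mul_le_mul_of_nonneg_left ?_ (Wp_nonneg t ht ht1 T)
          split_ifs with hT
          · exact hZ T hT
          · exact hCZ
      _ = CZ := by rw [← sum_mul, sum_Wp, one_mul]
  -- the main inequality
  have hmain : ∑ ka ∈ KA, v ka * ∑ T ∈ univ.filter (fun T : Finset ι => T.card ≤ d), Wp t T *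
        (ex π fun x => uo q π (Fk ka) (mask T x) ^ 2) ≤
        ε * ((1 + CZ) * (Y ^ ((m : ℝ)⁻¹) + 1)) := by
    have e1 : ∑ ka ∈ KA, v ka * ∑ T ∈ univ.filter (fun T : Finset ι => T.card ≤ d), Wp t T *
        (ex π fun x => uo q π (Fk ka) (mask T x) ^ 2) =
        ∑ z : Finset ι × (∀ i, X i), p z * (if z.1.card ≤ d then
          ∑ ka ∈ KA, v ka * uo q π (Fk ka) (mask z.1 z.2) ^ 2 else 0) := by
      rw [Fintype.sum_prod_type]
      have e2 : ∀ T : Finset ι, ∑ x, p (T, x) * (if T.card ≤ d then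
          ∑ ka ∈ KA, v ka * uo q π (Fk ka) (mask T x) ^ 2 else 0) =
          if T.card ≤ d then ∑ ka ∈ KA, v ka * (Wp t T *
            (ex π fun x => uo q π (Fk ka) (mask T x) ^ 2)) else 0 := by
        intro T
        by_cases hT : T.card ≤ d
        · simp only [hT, if_true, hp]
          unfold ex
          simp only [mul_sum]
          rw [sum_comm]
          refine sum_congr rfl fun ka _ => sum_congr rfl fun x _ => ?_
          ring
        · simp only [hT, if_false, mul_zero, sum_const_zero]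
      simp only [e2]
      rw [← sum_filter, sum_comm]
      refine sum_congr rfl fun ka _ => ?_
      rw [mul_sum]
    rw [e1]
    have h1 : ∀ z : Finset ι × (∀ i, X i), p z * (if z.1.card ≤ d then
          ∑ ka ∈ KA, v ka * uo q π (Fk ka) (mask z.1 z.2) ^ 2 else 0) ≤
          ε * (p z * ((a z + 1) * ζ z)) := by
      intro z
      by_cases hwz : wt π z.2 = 0
      · simp only [hp, hwz, mul_zero, zero_mul, le_refl]
      · have h2 : (if z.1.card ≤ d then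
          ∑ ka ∈ KA, v ka * uo q π (Fk ka) (mask z.1 z.2) ^ 2 else 0) ≤
          ε * ((a z + 1) * ζ z) := by
          by_cases hz : z.1.card ≤ d
          · simp only [ha, hζ, hz, if_true]
            apply hlev z.1 z.2 hz _ (A z.1 z.2) (hA0 _ _) (hAmax _ _)
            intro i _ h0
            exact hwz (prod_eq_zero (mem_univ i) h0)
          · simp only [ha, hζ, hz, if_false, mul_zero, le_refl]
        have h3 := mul_le_mul_of_nonneg_left h2 (hp0 z)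
        refine h3.trans (le_of_eq ?_)
        ring
    refine (sum_le_sum fun z _ => h1 z).trans ?_
    rw [← mul_sum]
    exact mul_le_mul_of_nonneg_left (young_sum p a ζ hp0 hp1 ha0 m hm hY0 hYm hζ2) hε
  -- conclusion
  have hlow : 1 / 2 * ∑ W ∈ univ.filter (fun W : Finset ι => W.card ≤ kk),
      (∏ i ∈ W, t i * q i ^ 2) * ∑ ka ∈ KA, v ka * nW π W (Fk ka) ≤
      ∑ ka ∈ KA, v ka * ∑ T ∈ univ.filter (fun T : Finset ι => T.card ≤ d), Wp t T *
        (ex π fun x => uo q π (Fk ka) (mask T x) ^ 2) := by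
    have e1 : 1 / 2 * ∑ W ∈ univ.filter (fun W : Finset ι => W.card ≤ kk),
      (∏ i ∈ W, t i * q i ^ 2) * ∑ ka ∈ KA, v ka * nW π W (Fk ka) =
      ∑ ka ∈ KA, v ka * (1 / 2 * ∑ W ∈ univ.filter (fun W : Finset ι => W.card ≤ kk),
        (∏ i ∈ W, t i * q i ^ 2) * nW π W (Fk ka)) := by
      simp only [mul_sum]
      rw [sum_comm]
      refine sum_congr rfl fun ka _ => sum_congr rfl fun W _ => ?_
      ring
    rw [e1]
    exact sum_le_sum fun ka hka => mul_le_mul_of_nonneg_left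
      (en_le_of_sets π hπ hπ1 t q ht ht1 kk d (Fk ka) hd) (hv ka hka)
  linarith [hlow.trans hmain]

/-- `mix_nvZ` with the constants of `oneC_poly`: noise `1 / (8 m (1 + c i))`, any rates `s i` of
the conclusion with `(8 m + 32) s i ≤ r0 i`. -/
theorem mix_nvZ_poly (m : ℕ) (hm : 2 ≤ m) (s r0 c : ι → ℝ) (hs : ∀ i, 0 ≤ s i)
    (hr1 : ∀ i, r0 i ≤ 1) (hc : ∀ i, 0 ≤ c i) (hsr : ∀ i, (8 * m + 32) * s i ≤ r0 i)
    (hs1 : ∀ i, (8 * m * (1 + c i)) ^ 2 * s i ≤ 1)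
    (π : ∀ i, X i → ℝ) (hπ : ∀ i x, 0 ≤ π i x) (hπ1 : ∀ i, ∑ x, π i x = 1)
    (kk d : ℕ) (hd : (kk : ℝ) + 2 * ∑ i, (8 * m * (1 + c i)) ^ 2 * s i ≤ d)
    {Sg : Type} (SG : Finset Sg) (Fs : Sg → (∀ i, X i) → ℝ) (E Ga : Sg → ℝ)
    (hGa : ∀ sg ∈ SG, 0 < Ga sg) (hE0 : ∀ sg ∈ SG, 0 ≤ E sg)
    (hE : ∀ sg ∈ SG, ∀ (T : Finset ι) (a : ∀ i, X i), T.card ≤ d → (∀ i ∈ T, π i (a i) ≠ 0) →
      TT.Loc.en π r0 (tr π (d - T.card) (restr T a (Fs sg))) ≤ (∏ i ∈ T, c i) ^ 2 * E sg)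
    {Ka : Type} (KA : Finset Ka) (v : Ka → ℝ) (hv : ∀ ka ∈ KA, 0 ≤ v ka)
    (Fk : Ka → (∀ i, X i) → ℝ) (ε : ℝ) (hε : 0 ≤ ε)
    (Zf : Finset ι → (∀ i, X i) → ℝ) (CZ : ℝ) (hCZ : 0 ≤ CZ)
    (hZ : ∀ T : Finset ι, T.card ≤ d → (ex π fun x => Zf T x ^ 2) ≤ CZ)
    (hlev : ∀ (T : Finset ι) (x : ∀ i, X i), T.card ≤ d → (∀ i ∈ T, π i (x i) ≠ 0) →
      ∀ A : ℝ, 0 ≤ A →
      (∀ sg ∈ SG, uo (fun i => 1 / (8 * m * (1 + c i))) π (Fs sg) (mask T x) ≤ A * Ga sg) →
      ∑ ka ∈ KA, v ka * uo (fun i => 1 / (8 * m * (1 + c i))) π (Fk ka) (mask T x) ^ 2 ≤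
        ε * ((A ^ 2 + 1) * Zf T x)) :
    ∑ W ∈ univ.filter (fun W : Finset ι => W.card ≤ kk),
      (∏ i ∈ W, s i) * ∑ ka ∈ KA, v ka * nW π W (Fk ka) ≤
      2 * ε * (1 + CZ) * ((∑ sg ∈ SG, (E sg / Ga sg ^ 2) ^ m) ^ ((m : ℝ)⁻¹) + 1) := by
  have hm1 : (2 : ℝ) ≤ m := by exact_mod_cast hm
  have hu : ∀ i, 0 < 8 * (m : ℝ) * (1 + c i) := fun i => by
    have := hc i
    positivity
  have e1 : ∀ i, (8 * (m : ℝ) * (1 + c i)) ^ 2 * s i * (1 / (8 * m * (1 + c i))) ^ 2 = s i := by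
    intro i
    have h5 := (hu i).ne'
    generalize 8 * (m : ℝ) * (1 + c i) = u at h5 ⊢
    field_simp
  have h := mix_nvZ m (8 * m) (2 * (4 * m) ^ (2 * m)) hm (by positivity) (by positivity)
    (oneC_poly m (by omega)) (fun i => (8 * m * (1 + c i)) ^ 2 * s i)
    (fun i => 1 / (8 * m * (1 + c i)))
    r0 c (fun i => mul_nonneg (sq_nonneg _) (hs i)) hs1 (fun i => (div_pos one_pos (hu i)).le) hr1
    hc (by
      intro i
      have h1 := noise_num m (by omega) (c i) (hc i)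
      have h2 : (8 * (m : ℝ) * (1 + c i)) ^ 2 * s i * (1 / (8 * m * (1 + c i)) *
          (1 / (8 * m * (1 + c i)))) = s i := by
        rw [← sq]
        exact e1 i
      rw [h2]
      have h3 := mul_le_mul_of_nonneg_left h1 (hs i)
      linarith [hsr i]) π hπ hπ1 kk d hd SG Fs E Ga hGa hE0 hE KA v hv Fk ε hε Zf CZ hCZ hZ hlev
  simp only [e1] at h
  exact h

end Vale.Agent.P042.H48.Top
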