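import Vale.Agent.P042.H944.UoPush
import Vale.Agent.P042.H48.TopZ

/-!
helper48 (P042, S.7): the energies `Ytop` of 944's `top_red` through the mixed level inequality
`mix_nvZ_poly`, in the language of the integers.
-/

set_option autoImplicit false
set_option linter.unusedSectionVars false

namespace Vale.Agent.P042.H48.Top

open Finset
open Vale.Agent.P042.TT.Loc (wt ten dl uo uk mask ex nW)
open Vale.Agent.P042.H461 (W ip Hc gm)
open Vale.Agent.P042.H944 (pF sum_pF zc Eng EngC Ytop omc uo_push nW_eq_ip)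

variable {ι : Type} [Fintype ι] [DecidableEq ι] {V : ι → Type} [∀ i, Fintype (V i)]
  [∀ i, DecidableEq (V i)] {w : ∀ i, V i → ℝ} {red : ℤ → ∀ i, V i}

theorem re_im_sq (S : Finset ℤ) (g : ℤ → ℝ) (z : ℤ → ℂ) :
    (∑ n ∈ S, g n * (z n).re) ^ 2 + (∑ n ∈ S, g n * (z n).im) ^ 2 =
      ‖∑ n ∈ S, (g n : ℂ) * z n‖ ^ 2 := by
  rw [← Complex.normSq_eq_norm_sq, Complex.normSq_apply, Complex.re_sum, Complex.im_sum]
  have a1 : ∀ n, ((g n : ℂ) * z n).re = g n * (z n).re := fun n => Complex.re_ofReal_mul _ _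
  have a2 : ∀ n, ((g n : ℂ) * z n).im = g n * (z n).im := fun n => Complex.im_ofReal_mul _ _
  simp only [a1, a2]
  ring

/-- **one window**: the energies `Ytop` from the level inequality for the weights
`f * omc (T, x)` and from the local second moments of the densities on the top pins. -/
theorem ytop_le (m : ℕ) (hm : 2 ≤ m) (rho r0 c : ι → ℝ) (hrho : ∀ i, 0 ≤ rho i)
    (hr1 : ∀ i, r0 i ≤ 1) (hc : ∀ i, 0 ≤ c i) (hsr : ∀ i, (8 * m + 32) * (2 * rho i) ≤ r0 i)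
    (hs1 : ∀ i, (8 * m * (1 + c i)) ^ 2 * (2 * rho i) ≤ 1)
    (h0 : ∀ i a, 0 ≤ w i a) (h1 : ∀ i, ∑ a, w i a = 1)
    (kk d : ℕ) (hd : (kk : ℝ) + 2 * ∑ i, (8 * m * (1 + c i)) ^ 2 * (2 * rho i) ≤ d)
    {S : Finset ℤ} {f : ℤ → ℝ} (hw : ∀ n ∈ S, f n ≠ 0 → W w (red n) ≠ 0)
    {Sg : Type} (SG : Finset Sg) (cell : Sg → Finset ℤ) (hcell : ∀ sg ∈ SG, cell sg ⊆ S)
    (E Ga : Sg → ℝ) (hGa : ∀ sg ∈ SG, 0 < Ga sg) (hE0 : ∀ sg ∈ SG, 0 ≤ E sg)
    (hE : ∀ sg ∈ SG, ∀ (T : Finset ι) (a : ∀ i, V i), T.card ≤ d → (∀ i ∈ T, w i (a i) ≠ 0) →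
      TT.Loc.en w r0 (UU.Loc.tr w (d - T.card) (TT.Loc.restr T a (pF w red (cell sg) f))) ≤
        (∏ i ∈ T, c i) ^ 2 * E sg)
    (D : Finset (Finset ι)) (hD : ∀ C ∈ D, C.card ≤ kk)
    (M2 : Finset ℕ) (v : ℕ → ℝ) (hv : ∀ m2 ∈ M2, 0 ≤ v m2) (ε : ℝ) (hε : 0 ≤ ε)
    (Zf : Finset ι → (∀ i, V i) → ℝ) (CZ : ℝ) (hCZ : 0 ≤ CZ)
    (hZ : ∀ T : Finset ι, T.card ≤ d → (ex w fun x => Zf T x ^ 2) ≤ CZ)
    (hlev : ∀ (T : Finset ι) (x : ∀ i, V i), T.card ≤ d → (∀ i ∈ T, w i (x i) ≠ 0) →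
      ∀ A : ℝ, 0 ≤ A →
      (∀ sg ∈ SG, ∑ n ∈ cell sg, f n * omc w red (fun i => 1 / (8 * m * (1 + c i))) T x n ≤
        A * Ga sg) →
      ∑ m2 ∈ M2, v m2 * ∑ a ∈ (range m2).filter (Nat.Coprime m2),
        ‖∑ n ∈ S, ((f n * omc w red (fun i => 1 / (8 * m * (1 + c i))) T x n : ℝ) : ℂ) *
          zc a m2 n‖ ^ 2 ≤ ε * ((A ^ 2 + 1) * Zf T x)) :
    Ytop w red rho D M2 v S f ≤
      2 * ε * (1 + CZ) * ((∑ sg ∈ SG, (E sg / Ga sg ^ 2) ^ m) ^ ((m : ℝ)⁻¹) + 1) := by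
  set KA : Finset ((Σ _ : ℕ, ℕ) × Bool) :=
    (M2.sigma fun m2 => (range m2).filter (Nat.Coprime m2)) ×ˢ (univ : Finset Bool) with hKA
  set fk : (Σ _ : ℕ, ℕ) × Bool → ℤ → ℝ := fun t n =>
    f n * (if t.2 then (zc t.1.2 t.1.1 n).re else (zc t.1.2 t.1.1 n).im) with hfk
  have hwk : ∀ t, ∀ n ∈ S, fk t n ≠ 0 → W w (red n) ≠ 0 := fun t n hn h =>
    hw n hn fun h' => h (by simp only [hfk, h', zero_mul])
  have hwc : ∀ sg ∈ SG, ∀ n ∈ cell sg, f n ≠ 0 → W w (red n) ≠ 0 := fun sg hsg n hn h =>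
    hw n (hcell sg hsg hn) h
  have key := mix_nvZ_poly m hm (fun i => 2 * rho i) r0 c
    (fun i => mul_nonneg zero_le_two (hrho i)) hr1 hc hsr hs1 w h0 h1 kk d hd SG
    (fun sg => pF w red (cell sg) f) E Ga hGa hE0 hE KA (fun t => v t.1.1)
    (by
      intro t ht
      simp only [hKA, mem_product, mem_sigma] at ht
      exact hv _ ht.1.1)
    (fun t => pF w red S (fk t)) ε hε Zf CZ hCZ hZ
    (by
      intro T x hT hx A hA hsg
      have h2 := hlev T x hT hx A hA (by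
        intro sg hsg'
        rw [← uo_push _ (hwc sg hsg') T x]
        exact hsg sg hsg')
      refine le_trans (le_of_eq ?_) h2
      simp only [hKA]
      rw [sum_product, sum_sigma]
      refine sum_congr rfl fun m2 _ => ?_
      rw [mul_sum]
      refine sum_congr rfl fun a _ => ?_
      rw [Fintype.sum_bool]
      rw [uo_push _ (hwk _) T x, uo_push _ (hwk _) T x, ← re_im_sq]
      simp only [hfk, if_true, Bool.false_eq_true, if_false]
      rw [← mul_add]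
      congr 3
      · refine sum_congr rfl fun n _ => ?_
        ring
      · refine sum_congr rfl fun n _ => ?_
        ring)
  refine le_trans ?_ key
  have e1 : Ytop w red rho D M2 v S f =
      ∑ C ∈ D, (∏ i ∈ C, 2 * rho i) * ∑ t ∈ KA, v t.1.1 * nW w C (pF w red S (fk t)) := by
    unfold Ytop EngC Eng
    have e2 : ∀ C : Finset ι, (∏ i ∈ C, 2 * rho i) * ∑ t ∈ KA, v t.1.1 * nW w C (pF w red S (fk t))
        = ∑ m2 ∈ M2, ∑ a ∈ (range m2).filter (Nat.Coprime m2),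
          v m2 * ((∏ i ∈ C, 2 * rho i) * ip w (Hc w (pF w red S
            (fun n => f n * (zc a m2 n).re)) C) (Hc w (pF w red S
            (fun n => f n * (zc a m2 n).re)) C) + (∏ i ∈ C, 2 * rho i) * ip w (Hc w (pF w red S
            (fun n => f n * (zc a m2 n).im)) C) (Hc w (pF w red S
            (fun n => f n * (zc a m2 n).im)) C)) := by
      intro C
      simp only [hKA]
      rw [sum_product, sum_sigma, mul_sum]
      refine sum_congr rfl fun m2 _ => ?_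
      rw [mul_sum]
      refine sum_congr rfl fun a _ => ?_
      rw [Fintype.sum_bool, nW_eq_ip h1, nW_eq_ip h1]
      simp only [hfk, if_true, Bool.false_eq_true, if_false]
      ring
    rw [sum_congr rfl fun C _ => e2 C, sum_comm]
    refine sum_congr rfl fun m2 _ => ?_
    rw [mul_sum, sum_comm]
    refine sum_congr rfl fun a _ => ?_
    rw [← mul_sum, sum_add_distrib]
  rw [e1]
  refine sum_le_sum_of_subset_of_nonneg (fun C hC => ?_) fun C _ _ => ?_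
  · rw [mem_filter]
    exact ⟨mem_univ _, hD C hC⟩
  · refine mul_nonneg (prod_nonneg fun i _ => mul_nonneg zero_le_two (hrho i))
      (sum_nonneg fun t ht => ?_)
    simp only [hKA, mem_product, mem_sigma] at ht
    exact mul_nonneg (hv _ ht.1.1) (TT.Loc.nW_nonneg w h0 h1 _ _)

end Vale.Agent.P042.H48.Top
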