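import Vale.Agent.P042.UU.LocC
import Vale.Agent.P042.H461.Hoef

/-!
helper48 (P042, S.7): the Efron-Stein components of the hypercontractive block (`TT.Loc`, `UU.Loc`)
are the Hoeffding components `Hc` of helper461.
-/

set_option autoImplicit false
set_option linter.unusedSectionVars false

namespace Vale.Agent.P042.H48.Top

open Finset Vale.Agent.P042.H461
open Vale.Agent.P042.TT.Loc (cexp nW wt ten dl uo uk mask ex)

variable {ι : Type} [Fintype ι] [DecidableEq ι] {X : ι → Type} [∀ i, Fintype (X i)]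
  [∀ i, DecidableEq (X i)] {w : ∀ i, X i → ℝ}

theorem wt_eq (x : ∀ i, X i) : wt w x = W w x := rfl

theorem ip_ex (F G : (∀ i, X i) → ℝ) : ip w F G = ex w (fun x => F x * G x) := rfl

theorem cexp_eq (F : (∀ i, X i) → ℝ) (T : Finset ι) : cexp w T F = gm w F T := by
  funext x
  unfold cexp gm Em
  refine Finset.sum_congr rfl fun y _ => ?_
  rw [Finset.piecewise_compl, wt_eq]

/-- the conditional expectation as a sum with kernels -/
theorem gm_sum (hw1 : ∀ i, ∑ a, w i a = 1) (F : (∀ i, X i) → ℝ) (T : Finset ι) (x : ∀ i, X i) :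
    gm w F T x = ∑ z, (∏ i, if i ∈ T then (if x i = z i then (1 : ℝ) else 0) else w i (z i)) *
      F z := by
  rw [← cexp_eq, ← TT.Loc.uo_one_mask w hw1]
  unfold uo ten
  refine Finset.sum_congr rfl fun z _ => ?_
  congr 1
  refine Finset.prod_congr rfl fun i _ => ?_
  by_cases hi : i ∈ T
  · simp [mask, hi, uk, dl]
  · simp [mask, hi, uk]

theorem cW_eq (hw1 : ∀ i, ∑ a, w i a = 1) (F : (∀ i, X i) → ℝ) (C : Finset ι) :
    UU.Loc.cW w C F = Hc w F C := by
  funext x
  unfold UU.Loc.cW ten Hc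
  rw [Finset.sum_apply]
  simp only [Pi.smul_apply, smul_eq_mul, gm_sum hw1]
  simp only [Finset.mul_sum]
  rw [Finset.sum_comm]
  refine Finset.sum_congr rfl fun z _ => ?_
  have h1 : ∏ i, UU.Loc.kW w C i (x i) (z i)
      = (∏ i ∈ C, ((if x i = z i then (1 : ℝ) else 0) + -w i (z i))) * ∏ i ∈ Cᶜ, w i (z i) := by
    rw [← Finset.prod_mul_prod_compl C]
    congr 1
    · refine Finset.prod_congr rfl fun i hi => ?_
      unfold UU.Loc.kW dl
      rw [if_pos hi, sub_eq_add_neg]
    · refine Finset.prod_congr rfl fun i hi => ?_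
      unfold UU.Loc.kW
      rw [if_neg (Finset.mem_compl.1 hi)]
  rw [h1, Finset.prod_add, Finset.sum_mul, Finset.sum_mul]
  refine Finset.sum_congr rfl fun A hA => ?_
  have hAC := Finset.mem_powerset.1 hA
  have h2 : ∏ i, (if i ∈ A then (if x i = z i then (1 : ℝ) else 0) else w i (z i))
      = (∏ i ∈ A, (if x i = z i then (1 : ℝ) else 0)) * ((∏ i ∈ C \ A, w i (z i)) *
        ∏ i ∈ Cᶜ, w i (z i)) := by
    rw [← Finset.prod_mul_prod_compl C, ← Finset.prod_sdiff hAC]
    have a1 : ∏ i ∈ C \ A, (if i ∈ A then (if x i = z i then (1 : ℝ) else 0) else w i (z i))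
        = ∏ i ∈ C \ A, w i (z i) :=
      Finset.prod_congr rfl fun i hi => if_neg (Finset.mem_sdiff.1 hi).2
    have a2 : ∏ i ∈ A, (if i ∈ A then (if x i = z i then (1 : ℝ) else 0) else w i (z i))
        = ∏ i ∈ A, (if x i = z i then (1 : ℝ) else 0) :=
      Finset.prod_congr rfl fun i hi => if_pos hi
    have a3 : ∏ i ∈ Cᶜ, (if i ∈ A then (if x i = z i then (1 : ℝ) else 0) else w i (z i))
        = ∏ i ∈ Cᶜ, w i (z i) :=
      Finset.prod_congr rfl fun i hi => if_neg fun h => Finset.mem_compl.1 hi (hAC h)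
    rw [a1, a2, a3]; ring
  have h3 : ∏ i ∈ C \ A, -w i (z i) = (-1 : ℝ) ^ (C.card - A.card) * ∏ i ∈ C \ A, w i (z i) := by
    rw [Finset.prod_neg, Finset.card_sdiff_of_subset hAC]
  rw [h2, h3]
  ring

/-- **bridge**: the energy of the component -/
theorem nW_eq_ip (hw1 : ∀ i, ∑ a, w i a = 1) (F : (∀ i, X i) → ℝ) (C : Finset ι) :
    nW w C F = ip w (Hc w F C) (Hc w F C) := by
  rw [UU.Loc.nW_eq w hw1, cW_eq hw1, ip_ex]

end Vale.Agent.P042.H48.Top
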