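import Vale.Agent.P042.H48.Tot1

/-!
# P042, (I3): Bernoulli averages (insertion of one element, union of two independent sets)
-/

set_option autoImplicit false
set_option linter.unusedSectionVars false

namespace Vale.Agent.P042.H48

open Finset Vale.Agent.P042.H461 Vale.Agent.P042.H416 Vale.Agent.P042.H742

variable {ι : Type*} [Fintype ι] [DecidableEq ι]

theorem bw_insert (t : ι → ℝ) {i : ι} {R : Finset ι} (hi : i ∉ R) :
    (1 - t i) * bw t (insert i R) = t i * bw t R := by
  unfold bw
  have h1 : Rᶜ = insert i (insert i R)ᶜ := by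
    ext j
    simp only [Finset.mem_compl, Finset.mem_insert]
    constructor
    · intro h
      by_cases hj : j = i
      · exact Or.inl hj
      · exact Or.inr fun h' => h'.elim hj h
    · rintro (h | h)
      · rw [h]
        exact hi
      · exact fun h' => h (Or.inr h')
  have h2 : i ∉ (insert i R)ᶜ := by simp
  rw [h1, Finset.prod_insert hi, Finset.prod_insert h2]
  ring

/-- the sets containing `i` against the sets which do not -/
theorem sum_bw_mem_le {t : ι → ℝ} (h0 : ∀ i, 0 ≤ t i) (h1 : ∀ i, t i ≤ 1) {i : ι} {q : ℝ}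
    (hq : t i ≤ q) (hh : t i ≤ 1 / 2) {F : Finset ι → ℝ} (hF : ∀ R, 0 ≤ F R) :
    ∑ R with i ∈ R, bw t R * F (R.erase i) ≤ 2 * q * ∑ R with i ∉ R, bw t R * F R := by
  have hq0 : 0 ≤ q := (h0 i).trans hq
  have h2 : ∑ R with i ∈ R, bw t R * F (R.erase i) =
      ∑ R with i ∉ R, bw t (insert i R) * F R := by
    refine Finset.sum_nbij' (fun R => R.erase i) (fun R => insert i R) ?_ ?_ ?_ ?_ ?_
    · intro R hR
      simp
    · intro R hR
      simp
    · intro R hR
      exact Finset.insert_erase (Finset.mem_filter.1 hR).2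
    · intro R hR
      exact Finset.erase_insert (Finset.mem_filter.1 hR).2
    · intro R hR
      rw [Finset.insert_erase (Finset.mem_filter.1 hR).2]
  rw [h2, Finset.mul_sum]
  refine Finset.sum_le_sum fun R hR => ?_
  have h3 := bw_insert t (Finset.mem_filter.1 hR).2
  have h4 := bw_nonneg h0 h1 R
  have h5 := bw_nonneg h0 h1 (insert i R)
  have h6 : bw t (insert i R) ≤ 2 * q * bw t R := by
    have h7 : t i * bw t R ≤ q * bw t R := mul_le_mul_of_nonneg_right hq h4
    nlinarith
  calc bw t (insert i R) * F R ≤ 2 * q * bw t R * F R := mul_le_mul_of_nonneg_right h6 (hF R)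
    _ = 2 * q * (bw t R * F R) := by ring

/-! ### union of two independent sets -/

theorem eq_of_down {A B : Finset ι → ℝ}
    (h : ∀ D : Finset ι, ∑ R ∈ D.powerset, A R = ∑ R ∈ D.powerset, B R) (D : Finset ι) :
    A D = B D := by
  induction D using Finset.strongInduction with
  | H D ih =>
    have h1 : ∀ A : Finset ι → ℝ, ∑ R ∈ D.powerset, A R = A D + ∑ R ∈ D.ssubsets, A R := by
      intro A
      rw [Finset.ssubsets, Finset.add_sum_erase _ _ (Finset.mem_powerset_self D)]
    have h2 := h D
    rw [h1 A, h1 B] at h2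
    have h3 : ∑ R ∈ D.ssubsets, A R = ∑ R ∈ D.ssubsets, B R :=
      Finset.sum_congr rfl fun R hR => ih R (Finset.mem_ssubsets.1 hR)
    linarith

theorem bw_compl (t : ι → ℝ) (R : Finset ι) : bw t R = bw (fun i => 1 - t i) Rᶜ := by
  unfold bw
  rw [compl_compl, mul_comm]
  congr 1
  exact Finset.prod_congr rfl fun i _ => by ring

theorem sum_bw_subset (t : ι → ℝ) (D : Finset ι) :
    ∑ R ∈ D.powerset, bw t R = ∏ i ∈ Dᶜ, (1 - t i) := by
  rw [← sum_bw_superset (fun i => 1 - t i) Dᶜ]
  refine Finset.sum_nbij' (fun R => Rᶜ) (fun R => Rᶜ) ?_ ?_ ?_ ?_ ?_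
  · intro R hR
    simp only [Finset.mem_filter, Finset.mem_univ, true_and]
    exact Finset.compl_subset_compl.2 (Finset.mem_powerset.1 hR)
  · intro R hR
    rw [Finset.mem_powerset]
    have h := Finset.compl_subset_compl.2 (Finset.mem_filter.1 hR).2
    rwa [compl_compl] at h
  · intro R _
    exact compl_compl R
  · intro R _
    exact compl_compl R
  · intro R _
    exact bw_compl t R

/-- the rate of the union of two independent Bernoulli sets -/
def tu (t u : ι → ℝ) (i : ι) : ℝ := t i + u i - t i * u i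

theorem bw_union (t u : ι → ℝ) (D : Finset ι) :
    ∑ R, ∑ R', (if R ∪ R' = D then bw t R * bw u R' else 0) = bw (tu t u) D := by
  refine eq_of_down (A := fun D => ∑ R, ∑ R', if R ∪ R' = D then bw t R * bw u R' else 0)
    (B := bw (tu t u)) (fun D => ?_) D
  rw [sum_bw_subset, Finset.sum_comm]
  have h1 : ∀ R : Finset ι, ∑ E ∈ D.powerset, ∑ R' : Finset ι,
      (if R ∪ R' = E then bw t R * bw u R' else 0) =
      if R ⊆ D then bw t R * ∑ R' ∈ D.powerset, bw u R' else 0 := by
    intro R
    rw [Finset.sum_comm]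
    have h2 : ∀ R' : Finset ι, ∑ E ∈ D.powerset,
        (if R ∪ R' = E then bw t R * bw u R' else 0) =
        if R ⊆ D then (if R' ⊆ D then bw t R * bw u R' else 0) else 0 := by
      intro R'
      rw [Finset.sum_ite_eq]
      simp only [Finset.mem_powerset, Finset.union_subset_iff]
      by_cases h3 : R ⊆ D
      · by_cases h4 : R' ⊆ D
        · rw [if_pos ⟨h3, h4⟩, if_pos h3, if_pos h4]
        · rw [if_neg fun h => h4 h.2, if_pos h3, if_neg h4]
      · rw [if_neg fun h => h3 h.1, if_neg h3]
    rw [Finset.sum_congr rfl fun R' _ => h2 R']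
    by_cases h3 : R ⊆ D
    · simp only [if_pos h3]
      rw [← Finset.sum_filter, Finset.mul_sum]
      refine Finset.sum_congr ?_ fun _ _ => rfl
      ext E
      simp
    · simp only [if_neg h3, Finset.sum_const_zero]
  rw [Finset.sum_congr rfl fun R _ => h1 R, ← Finset.sum_filter]
  have h5 : (univ.filter fun R : Finset ι => R ⊆ D) = D.powerset := by
    ext E
    simp
  rw [h5, ← Finset.sum_mul, sum_bw_subset, sum_bw_subset, ← Finset.prod_mul_distrib]
  refine Finset.prod_congr rfl fun i _ => ?_
  unfold tu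
  ring

theorem avg_union (t u : ι → ℝ) (f : Finset ι → ℝ) :
    ∑ R, ∑ R', bw t R * bw u R' * f (R ∪ R') = ∑ D, bw (tu t u) D * f D := by
  have h1 : ∀ R R' : Finset ι, bw t R * bw u R' * f (R ∪ R') =
      ∑ D, (if R ∪ R' = D then bw t R * bw u R' else 0) * f D := by
    intro R R'
    simp only [ite_mul, zero_mul]
    rw [Finset.sum_ite_eq, if_pos (Finset.mem_univ _)]
  rw [Finset.sum_congr rfl fun R _ => Finset.sum_congr rfl fun R' _ => h1 R R']
  rw [Finset.sum_congr rfl fun R _ => Finset.sum_comm, Finset.sum_comm]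
  refine Finset.sum_congr rfl fun D _ => ?_
  rw [← bw_union t u D, Finset.sum_mul]
  exact Finset.sum_congr rfl fun R _ => by rw [Finset.sum_mul]

/-- the average of a sum over the random set -/
theorem avg_sum_mem (t : ι → ℝ) (S : Finset ι) (f : ι → ℝ) :
    ∑ R, bw t R * ∑ i ∈ R ∩ S, f i = ∑ i ∈ S, t i * f i := by
  have h1 : ∀ R : Finset ι, bw t R * ∑ i ∈ R ∩ S, f i =
      ∑ i ∈ S, (if {i} ⊆ R then bw t R else 0) * f i := by
    intro R
    rw [Finset.inter_comm, ← Finset.filter_mem_eq_inter, Finset.sum_filter, Finset.mul_sum]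
    refine Finset.sum_congr rfl fun i _ => ?_
    by_cases hi : i ∈ R
    · rw [if_pos hi, if_pos (Finset.singleton_subset_iff.2 hi)]
    · rw [if_neg hi, if_neg fun h => hi (Finset.singleton_subset_iff.1 h)]
      ring
  rw [Finset.sum_congr rfl fun R _ => h1 R, Finset.sum_comm]
  refine Finset.sum_congr rfl fun i _ => ?_
  rw [← Finset.sum_mul, ← Finset.sum_filter, sum_bw_superset, Finset.prod_singleton]

end Vale.Agent.P042.H48
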