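import Vale.Agent.P042.H48.Tot2
import Vale.Agent.P042.H779.MuScale

/-!
# P042, (I3): the totals, all scales at once
-/

set_option autoImplicit false
set_option linter.unusedSectionVars false

namespace Vale.Agent.P042.H48

open Finset Vale.Agent.P042.H461 Vale.Agent.P042.H416 Vale.Agent.P042.H742
open Vale.Agent.P042.H779 (marg m1)
open Vale.Agent.P042.H779.Ab (Lo At Lo_succ)

variable {ι : Type*} [Fintype ι] [DecidableEq ι] {V : ι → Type*} [∀ i, Fintype (V i)]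
  [∀ i, DecidableEq (V i)]

theorem mem_Lo {sc : ι → ℕ} {s : ℕ} {i : ι} : i ∈ Lo sc s ↔ sc i < s := by simp [Lo]

theorem mem_At {sc : ι → ℕ} {s : ℕ} {i : ι} : i ∈ At sc s ↔ sc i = s := by simp [At]

/-- one scale of the average of the total correlation -/
theorem TC_scale {mu : (∀ i, V i) → ℝ} (h : IsLaw mu) {t : ι → ℝ} (h0 : ∀ i, 0 ≤ t i)
    (hh : ∀ i, t i ≤ 1 / 2) {sc : ι → ℕ} {s : ℕ} {q : ℝ} (hq : ∀ i ∈ At sc s, t i ≤ q) :
    ∑ R, bw t R * (TC mu (R ∩ Lo sc (s + 1)) - TC mu (R ∩ Lo sc s)) ≤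
      2 * q * ∑ R, bw t R * ∑ j ∈ At sc s \ R, MI mu j (R ∩ Lo sc (s + 1)) := by
  have h1 : ∀ i, t i ≤ 1 := fun i => (hh i).trans (by norm_num)
  have hstep : ∀ R : Finset ι, bw t R * (TC mu (R ∩ Lo sc (s + 1)) - TC mu (R ∩ Lo sc s)) ≤
      ∑ i ∈ At sc s, if i ∈ R then bw t R * MI mu i ((R.erase i) ∩ Lo sc (s + 1)) else 0 := by
    intro R
    have h2 : R ∩ Lo sc (s + 1) = (R ∩ Lo sc s) ∪ (R ∩ At sc s) := by
      rw [Lo_succ, Finset.inter_union_distrib_left]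
    have hd : Disjoint (R ∩ Lo sc s) (R ∩ At sc s) := by
      rw [Finset.disjoint_left]
      intro i hi hi'
      have h3 := mem_Lo.1 (Finset.mem_inter.1 hi).2
      have h4 := mem_At.1 (Finset.mem_inter.1 hi').2
      omega
    have h3 := TC_step h _ _ hd
    rw [← h2] at h3
    have h4 := mul_le_mul_of_nonneg_left h3 (bw_nonneg h0 h1 R)
    refine h4.trans (le_of_eq ?_)
    rw [Finset.inter_comm R (At sc s), ← Finset.filter_mem_eq_inter, Finset.sum_filter,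
      Finset.mul_sum]
    refine Finset.sum_congr rfl fun i _ => ?_
    by_cases hi : i ∈ R
    · rw [if_pos hi, if_pos hi, Finset.erase_inter]
    · rw [if_neg hi, if_neg hi, mul_zero]
  refine (Finset.sum_le_sum fun R _ => hstep R).trans ?_
  rw [Finset.sum_comm]
  have h5 : ∀ i ∈ At sc s, (∑ R : Finset ι, if i ∈ R then
      bw t R * MI mu i ((R.erase i) ∩ Lo sc (s + 1)) else 0) ≤
      2 * q * ∑ R : Finset ι, if i ∉ R then bw t R * MI mu i (R ∩ Lo sc (s + 1)) else 0 := by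
    intro i hi
    rw [← Finset.sum_filter, ← Finset.sum_filter]
    exact sum_bw_mem_le h0 h1 (hq i hi) (hh i) (F := fun R => MI mu i (R ∩ Lo sc (s + 1)))
      fun R => MI_nonneg h i _
  refine (Finset.sum_le_sum h5).trans (le_of_eq ?_)
  rw [← Finset.mul_sum, Finset.sum_comm]
  congr 1
  refine Finset.sum_congr rfl fun R _ => ?_
  rw [Finset.mul_sum, ← Finset.filter_notMem_eq_sdiff, Finset.sum_filter]

/-- the average of the total correlation -/
theorem TC_avg {mu : (∀ i, V i) → ℝ} (h : IsLaw mu) {t : ι → ℝ} (h0 : ∀ i, 0 ≤ t i)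
    (hh : ∀ i, t i ≤ 1 / 2) {sc : ι → ℕ} {ns : ℕ} (hns : ∀ i, sc i < ns) {q : ℕ → ℝ}
    (hq : ∀ i, t i ≤ q (sc i)) (hq0 : ∀ s, 0 ≤ q s) {ok' : Finset ι → Prop} [DecidablePred ok']
    {lam a : ℕ → ℝ}
    {c : ℕ → ι → ℝ} (hl : ∀ s, 0 < lam s) (ha : ∀ s, 0 ≤ a s) (hc : ∀ s i, 0 ≤ c s i)
    (hP : ∀ s, ∀ P ⊆ Lo sc (s + 1), ok' P →
      lam s * ∑ j ∈ At sc s \ P, MI mu j P ≤ ∑ i ∈ P, c s i + a s)
    {bad : ℕ → ℝ}
    (hbad : ∀ s, ∑ R, bw t R * (if ok' (R ∩ Lo sc (s + 1)) then 0 else 1) ≤ bad s)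
    {H : ℕ → ℝ} (hH : ∀ i, -ne mu {i} ≤ H (sc i)) :
    ∑ R, bw t R * TC mu R ≤ ∑ s ∈ range ns, 2 * q s *
      ((∑ i ∈ Lo sc (s + 1), t i * c s i + a s) / lam s + bad s * ((At sc s).card * H s)) := by
  have h1 : ∀ i, t i ≤ 1 := fun i => (hh i).trans (by norm_num)
  have htel : ∀ n : ℕ, ∑ R, bw t R * TC mu (R ∩ Lo sc n) =
      ∑ s ∈ range n, ∑ R, bw t R * (TC mu (R ∩ Lo sc (s + 1)) - TC mu (R ∩ Lo sc s)) := by
    intro n
    induction n with
    | zero =>
      have h2 : Lo sc 0 = (∅ : Finset ι) := by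
        ext i
        simp [mem_Lo]
      rw [h2]
      simp [TC_empty h]
    | succ n ih =>
      rw [Finset.sum_range_succ, ← ih, ← Finset.sum_add_distrib]
      exact Finset.sum_congr rfl fun R _ => by ring
  have hLn : Lo sc ns = (univ : Finset ι) := by
    ext i
    simp [mem_Lo, hns i]
  have h2 := htel ns
  rw [hLn] at h2
  simp only [Finset.inter_univ] at h2
  rw [h2]
  refine Finset.sum_le_sum fun s _ => ?_
  by_cases hAt : (At sc s).Nonempty
  swap
  · rw [Finset.not_nonempty_iff_eq_empty] at hAt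
    have h3 : Lo sc (s + 1) = Lo sc s := by
      rw [Lo_succ, hAt, Finset.union_empty]
    rw [h3, hAt]
    simp only [sub_self, mul_zero, Finset.sum_const_zero, Finset.card_empty, Nat.cast_zero,
      zero_mul, add_zero]
    refine mul_nonneg (mul_nonneg (by norm_num) (hq0 s)) (div_nonneg ?_ (hl s).le)
    exact add_nonneg (Finset.sum_nonneg fun i _ => mul_nonneg (h0 i) (hc s i)) (ha s)
  obtain ⟨i0, hi0⟩ := hAt
  have hqs : 0 ≤ q s := hq0 s
  refine (TC_scale h h0 hh (q := q s) fun i hi => by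
    have := hq i
    rwa [mem_At.1 hi] at this).trans ?_
  refine mul_le_mul_of_nonneg_left ?_ (mul_nonneg (by norm_num) hqs)
  have hMI : ∀ R : Finset ι, ∑ j ∈ At sc s \ R, MI mu j (R ∩ Lo sc (s + 1)) ≤
      (∑ i ∈ R ∩ Lo sc (s + 1), c s i + a s) / lam s +
        (if ok' (R ∩ Lo sc (s + 1)) then 0 else 1) * ((At sc s).card * H s) := by
    intro R
    have hH0 : 0 ≤ H s := by
      have h3 := hH i0
      rw [mem_At.1 hi0] at h3
      have h4 := (MI_nonneg h i0 ∅).trans (MI_le h i0 ∅)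
      linarith
    have hpos : 0 ≤ (∑ i ∈ R ∩ Lo sc (s + 1), c s i + a s) / lam s :=
      div_nonneg (add_nonneg (Finset.sum_nonneg fun i _ => hc s i) (ha s)) (hl s).le
    have hsub : At sc s \ R = At sc s \ (R ∩ Lo sc (s + 1)) := by
      ext i
      simp only [Finset.mem_sdiff, mem_At, Finset.mem_inter, mem_Lo]
      constructor
      · rintro ⟨h3, h4⟩
        exact ⟨h3, fun h5 => h4 h5.1⟩
      · rintro ⟨h3, h4⟩
        exact ⟨h3, fun h5 => h4 ⟨h5, by omega⟩⟩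
    by_cases hok : ok' (R ∩ Lo sc (s + 1))
    · rw [if_pos hok, zero_mul, add_zero, le_div_iff₀ (hl s), mul_comm, hsub]
      exact hP s _ Finset.inter_subset_right hok
    · rw [if_neg hok, one_mul]
      have h3 : ∑ j ∈ At sc s \ R, MI mu j (R ∩ Lo sc (s + 1)) ≤ ∑ j ∈ At sc s, H s := by
        refine (Finset.sum_le_sum_of_subset_of_nonneg Finset.sdiff_subset fun j _ _ =>
          MI_nonneg h j _).trans (Finset.sum_le_sum fun j hj => ?_)
        have h4 := hH j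
        rw [mem_At.1 hj] at h4
        exact (MI_le h j _).trans h4
      rw [Finset.sum_const, nsmul_eq_mul] at h3
      linarith
  refine (Finset.sum_le_sum fun R _ => mul_le_mul_of_nonneg_left (hMI R)
    (bw_nonneg h0 h1 R)).trans ?_
  have hsplit : ∀ R : Finset ι, bw t R * ((∑ i ∈ R ∩ Lo sc (s + 1), c s i + a s) / lam s +
        (if ok' (R ∩ Lo sc (s + 1)) then 0 else 1) * ((At sc s).card * H s)) =
      (bw t R * ∑ i ∈ R ∩ Lo sc (s + 1), c s i) / lam s + bw t R * (a s / lam s) +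
        (bw t R * (if ok' (R ∩ Lo sc (s + 1)) then 0 else 1)) * ((At sc s).card * H s) := by
    intro R
    ring
  rw [Finset.sum_congr rfl fun R _ => hsplit R, Finset.sum_add_distrib, Finset.sum_add_distrib,
    ← Finset.sum_div, avg_sum_mem, ← Finset.sum_mul, sum_bw, one_mul, ← Finset.sum_mul,
    ← add_div]
  have hH0 : 0 ≤ (At sc s).card * H s := by
    refine mul_nonneg (Nat.cast_nonneg _) ?_
    have h3 := hH i0
    rw [mem_At.1 hi0] at h3
    have h4 := (MI_nonneg h i0 ∅).trans (MI_le h i0 ∅)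
    linarith
  exact add_le_add le_rfl (mul_le_mul_of_nonneg_right (hbad s) hH0)

/-- **(I3), all scales**: roots at the rates `u`, sets of coordinates at the rates `t` -/
theorem totals {mu : (∀ i, V i) → ℝ} (h : IsLaw mu) {t u : ι → ℝ} (h0 : ∀ i, 0 ≤ t i)
    (h1 : ∀ i, t i ≤ 1) (hu0 : ∀ i, 0 ≤ u i) (hu1 : ∀ i, u i ≤ 1)
    (hh : ∀ i, tu t u i ≤ 1 / 2) {sc : ι → ℕ} {ns : ℕ} (hns : ∀ i, sc i < ns) {q : ℕ → ℝ}
    (hq : ∀ i, tu t u i ≤ q (sc i)) (hq0 : ∀ s, 0 ≤ q s)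
    {ok' : Finset ι → Prop} [DecidablePred ok'] {lam a : ℕ → ℝ}
    {c : ℕ → ι → ℝ} (hl : ∀ s, 0 < lam s) (ha : ∀ s, 0 ≤ a s) (hc : ∀ s i, 0 ≤ c s i)
    (hP : ∀ s, ∀ P ⊆ Lo sc (s + 1), ok' P →
      lam s * ∑ j ∈ At sc s \ P, MI mu j P ≤ ∑ i ∈ P, c s i + a s)
    {bad : ℕ → ℝ}
    (hbad : ∀ s, ∑ R, bw (tu t u) R * (if ok' (R ∩ Lo sc (s + 1)) then 0 else 1) ≤ bad s)
    {H : ℕ → ℝ} (hH : ∀ i, -ne mu {i} ≤ H (sc i)) :
    ∑ i, u i * ∑ a, m1 mu i a * Iia t mu i a ≤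
      ∑ s ∈ range ns, 2 * q s * ((∑ i ∈ Lo sc (s + 1), tu t u i * c s i + a s) / lam s +
        bad s * ((At sc s).card * H s)) + ∑ i, u i * t i * H (sc i) := by
  have htu0 : ∀ i, 0 ≤ tu t u i := by
    intro i
    unfold tu
    nlinarith [mul_nonneg (h0 i) (sub_nonneg.2 (hu1 i)), hu0 i]
  have e1 : ∑ i, u i * ∑ a, m1 mu i a * Iia t mu i a = ∑ R, bw t R * ∑ i, u i * MI mu i R := by
    have h2 : ∀ i, u i * ∑ a, m1 mu i a * Iia t mu i a = ∑ R, bw t R * (u i * MI mu i R) := by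
      intro i
      rw [sum_Iia t h, Finset.mul_sum]
      exact Finset.sum_congr rfl fun R _ => by ring
    rw [Finset.sum_congr rfl fun i _ => h2 i, Finset.sum_comm]
    exact Finset.sum_congr rfl fun R _ => by rw [Finset.mul_sum]
  have e2 : ∀ R : Finset ι, ∑ i, u i * MI mu i R = ∑ R', bw u R' * ∑ i ∈ R', MI mu i R := by
    intro R
    have h3 := avg_sum_mem u univ fun i => MI mu i R
    simp only [Finset.inter_univ] at h3
    exact h3.symm
  have e3 : ∀ R : Finset ι, bw t R * ∑ R', bw u R' * ∑ i ∈ R', MI mu i R ≤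
      ∑ R', bw t R * bw u R' * TC mu (R ∪ R') + bw t R * ∑ i ∈ R, u i * -ne mu {i} := by
    intro R
    have h4 := avg_sum_mem u R fun i => -ne mu {i}
    rw [← h4, Finset.mul_sum, Finset.mul_sum, ← Finset.sum_add_distrib]
    refine Finset.sum_le_sum fun R' _ => ?_
    have h5 := sum_MI_le h R R'
    rw [Finset.inter_comm] at h5
    have h6 := mul_le_mul_of_nonneg_left h5
      (mul_nonneg (bw_nonneg h0 h1 R) (bw_nonneg hu0 hu1 R'))
    calc bw t R * (bw u R' * ∑ i ∈ R', MI mu i R) =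
        bw t R * bw u R' * ∑ i ∈ R', MI mu i R := by ring
      _ ≤ _ := h6
      _ = _ := by ring
  have e4 : ∑ R, bw t R * ∑ i ∈ R, u i * -ne mu {i} = ∑ i, t i * (u i * -ne mu {i}) := by
    have h5 := avg_sum_mem t univ fun i => u i * -ne mu {i}
    simp only [Finset.inter_univ] at h5
    exact h5
  rw [e1]
  calc ∑ R, bw t R * ∑ i, u i * MI mu i R
      ≤ ∑ R, (∑ R', bw t R * bw u R' * TC mu (R ∪ R') +
          bw t R * ∑ i ∈ R, u i * -ne mu {i}) :=
        Finset.sum_le_sum fun R _ => by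
          rw [e2 R]
          exact e3 R
    _ = ∑ D, bw (tu t u) D * TC mu D + ∑ i, t i * (u i * -ne mu {i}) := by
        rw [Finset.sum_add_distrib, avg_union, e4]
    _ ≤ _ := by
        refine add_le_add (TC_avg h htu0 hh hns hq hq0 hl ha hc hP hbad hH)
          (Finset.sum_le_sum fun i _ => ?_)
        have h6 := mul_le_mul_of_nonneg_left (hH i) (mul_nonneg (hu0 i) (h0 i))
        linarith

end Vale.Agent.P042.H48
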